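import Mathlib

/-!
# Bin packing: optimum and configuration LP (definitions for P302)

An instance is a list `I` of rational item sizes.  A bin is a list of items of total size at
most `1`.  `OPT I` is the least number of bins into which `I` can be packed, and `LP I` is the
value of the Gilmore-Gomory configuration LP.
-/

namespace Vale.Agent.H50.BinPack

/-- The list of item sizes `I` can be packed into `k` bins of capacity `1`: the bins are `k`
lists (empty bins are allowed) which together hold exactly the items of `I`, each of total
size at most `1`. -/
def Packable (I : List ℚ) (k : ℕ) : Prop :=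
  ∃ bins : List (List ℚ), bins.length = k ∧ bins.flatten.Perm I ∧ ∀ b ∈ bins, b.sum ≤ 1

/-- `OPT I`: the least number of bins into which `I` can be packed. -/
noncomputable def OPT (I : List ℚ) : ℕ := sInf {k : ℕ | Packable I k}

/-- A configuration of `I`: a list of sizes occurring in `I` (a size may be repeated, also more
often than its multiplicity in `I`) of total size at most `1`. -/
def IsConfig (I c : List ℚ) : Prop := (∀ s ∈ c, s ∈ I) ∧ c.sum ≤ 1

/-- A fractional solution of the configuration LP of `I`: finitely many configurations with
nonnegative real weights, such that every size `s` of `I` is covered, with weights, at least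
as often as its multiplicity `I.count s`. -/
def IsFracSol (I : List ℚ) (z : List (List ℚ × ℝ)) : Prop :=
  (∀ p ∈ z, IsConfig I p.1 ∧ 0 ≤ p.2) ∧
    ∀ s ∈ I, (I.count s : ℝ) ≤ (z.map (fun p => p.2 * (p.1.count s : ℝ))).sum

/-- `LP I`: the value of the Gilmore-Gomory configuration LP, the least total weight of a
fractional solution. -/
noncomputable def LP (I : List ℚ) : ℝ :=
  sInf {t : ℝ | ∃ z : List (List ℚ × ℝ), IsFracSol I z ∧ (z.map Prod.snd).sum = t}

end Vale.Agent.H50.BinPack
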