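import Mathlib
import Vale.Agent.H50.BinPack.Defs

/-!
# Bin packing: basic packing lemmas and weak LP duality
-/

namespace Vale.Agent.H50.BinPack

open List

/-! ### Packings -/

theorem Packable.perm {I J : List ℚ} {k : ℕ} (h : I ~ J) (hp : Packable I k) : Packable J k := by
  obtain ⟨bins, h1, h2, h3⟩ := hp
  exact ⟨bins, h1, h2.trans h, h3⟩

theorem Packable.mono {I : List ℚ} {k l : ℕ} (hp : Packable I k) (hkl : k ≤ l) :
    Packable I l := by
  obtain ⟨bins, h1, h2, h3⟩ := hp
  refine ⟨bins ++ List.replicate (l - k) [], ?_, ?_, ?_⟩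
  · simp [h1]; omega
  · simpa [List.flatten_append] using h2
  · intro b hb
    rcases List.mem_append.1 hb with hb | hb
    · exact h3 b hb
    · rw [List.eq_of_mem_replicate hb]; simp

theorem Packable.append {I J : List ℚ} {k l : ℕ} (hI : Packable I k) (hJ : Packable J l) :
    Packable (I ++ J) (k + l) := by
  obtain ⟨b1, h1, h2, h3⟩ := hI
  obtain ⟨c1, g1, g2, g3⟩ := hJ
  refine ⟨b1 ++ c1, by simp [h1, g1], ?_, ?_⟩
  · rw [List.flatten_append]; exact h2.append g2
  · intro b hb
    rcases List.mem_append.1 hb with hb | hb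
    · exact h3 b hb
    · exact g3 b hb

theorem packable_nil : Packable [] 0 := ⟨[], rfl, by simp, by simp⟩

theorem packable_one {I : List ℚ} (h : I.sum ≤ 1) : Packable I 1 :=
  ⟨[I], rfl, by simp, by simpa using h⟩

theorem packable_singletons (L : List ℚ) (h : ∀ v ∈ L, v ≤ 1) : Packable L L.length := by
  induction L with
  | nil => exact packable_nil
  | cons a L ih =>
    have h1 : Packable [a] 1 := packable_one (by simpa using h a (by simp))
    have h2 := h1.append (ih (fun v hv => h v (by simp [hv])))
    have e : (a :: L).length = 1 + L.length := by simp; omega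
    rw [e]
    simpa using h2

theorem packable_pairs_aux (n : ℕ) : ∀ L : List ℚ, L.length ≤ n → (∀ v ∈ L, v ≤ 1 / 2) →
    Packable L ((L.length + 1) / 2) := by
  induction n with
  | zero =>
    intro L hL _
    have : L = [] := List.length_eq_zero_iff.1 (by omega)
    subst this
    exact packable_nil
  | succ n ih =>
    intro L hL h
    match L, hL, h with
    | [], _, _ => exact packable_nil
    | [a], _, h =>
      have ha := h a (by simp)
      have h1 : Packable [a] 1 := packable_one (by rw [List.sum_singleton]; linarith)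
      have e : ([a].length + 1) / 2 = 1 := by simp
      rw [e]
      exact h1
    | a :: b :: L, hL, h =>
      have ha := h a (by simp)
      have hb := h b (by simp)
      have h1 : Packable [a, b] 1 := packable_one (by simp; linarith)
      have h2 := h1.append (ih L (by simp at hL; omega) (fun v hv => h v (by simp [hv])))
      have e : ((a :: b :: L).length + 1) / 2 = 1 + (L.length + 1) / 2 := by
        simp only [List.length_cons]; omega
      rw [e]
      simpa using h2

theorem packable_pairs (L : List ℚ) (h : ∀ v ∈ L, v ≤ 1 / 2) :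
    Packable L ((L.length + 1) / 2) :=
  packable_pairs_aux L.length L le_rfl h

/-- Adding one small item to a packing with enough total free room. -/
theorem packable_cons_small (k : ℕ) (hk : 1 ≤ k) (X : List ℚ) (t : ℚ)
    (ht : t * ((k : ℚ) - 1) ≤ 1) (hsum : X.sum + t ≤ (k : ℚ) - 1) (hX : Packable X k) :
    Packable (t :: X) k := by
  obtain ⟨bins, h1, h2, h3⟩ := hX
  have hne : bins ≠ [] := by
    intro h; rw [h] at h1; simp at h1; omega
  have hsumb : (bins.map List.sum).sum = X.sum := by
    rw [← List.sum_flatten]; exact h2.sum_eq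
  have hkq : (0 : ℚ) < k := by exact_mod_cast hk
  -- a bin of at most average load
  obtain ⟨b, hb, hbl⟩ : ∃ b ∈ bins, b.sum * k ≤ X.sum := by
    have := List.exists_le_of_sum_le hne (fun b : List ℚ => b.sum * k) (fun _ => X.sum) (by
      rw [List.sum_map_mul_right, hsumb]
      simp [h1, mul_comm])
    exact this
  have hfit : b.sum + t ≤ 1 := by
    have e1 : (b.sum + t) * k ≤ k := by nlinarith
    by_contra hcon
    have hcon' := not_le.1 hcon
    nlinarith
  obtain ⟨l1, l2, rfl⟩ := List.append_of_mem hb
  refine ⟨l1 ++ (t :: b) :: l2, ?_, ?_, ?_⟩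
  · simpa using h1
  · have e : (l1 ++ (t :: b) :: l2).flatten ~ t :: (l1 ++ b :: l2).flatten := by
      simp only [List.flatten_append, List.flatten_cons, List.cons_append]
      exact List.perm_middle
    exact e.trans (h2.cons t)
  · intro c hc
    rcases List.mem_append.1 hc with hc | hc
    · exact h3 c (by simp [hc])
    · rcases List.mem_cons.1 hc with hc | hc
      · rw [hc]; simpa [add_comm] using hfit
      · exact h3 c (by simp [hc])

/-- Greedy addition of small items: if the total size is at most `k - 1`, all items of size at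
most `1 / (k - 1)` can be added to any packing of the other items into `k` bins. -/
theorem packable_add_small (k : ℕ) (hk : 1 ≤ k) (H : List ℚ) : ∀ T : List ℚ,
    (∀ t ∈ T, 0 ≤ t ∧ t * ((k : ℚ) - 1) ≤ 1) → (T ++ H).sum ≤ (k : ℚ) - 1 → Packable H k →
    Packable (T ++ H) k := by
  intro T
  induction T with
  | nil => intro _ _ h; simpa using h
  | cons t T ih =>
    intro hT hsum hH
    have ht := hT t (by simp)
    have hsum' : (T ++ H).sum + t ≤ (k : ℚ) - 1 := by
      have : (t :: T ++ H).sum = t + (T ++ H).sum := by simp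
      rw [this] at hsum; linarith
    have h1 := ih (fun v hv => hT v (by simp [hv])) (by linarith [ht.1]) hH
    exact packable_cons_small k hk (T ++ H) t ht.2 hsum' h1

theorem OPT_le {I : List ℚ} {k : ℕ} (h : Packable I k) : OPT I ≤ k :=
  Nat.sInf_le h

/-! ### The configuration LP -/

theorem fracSol_singletons (I : List ℚ) (hI : ∀ a ∈ I, a ≤ 1) :
    IsFracSol I (I.map (fun a => ([a], (1 : ℝ)))) := by
  constructor
  · intro p hp
    obtain ⟨a, ha, rfl⟩ := List.mem_map.1 hp
    refine ⟨⟨?_, ?_⟩, by norm_num⟩
    · intro s hs; simp at hs; rw [hs]; exact ha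
    · simpa using hI a ha
  · intro s _
    have key : ∀ L : List ℚ, ((L.map (fun a => ([a], (1 : ℝ)))).map
        (fun p => p.2 * ((p.1.count s : ℕ) : ℝ))).sum = (L.count s : ℝ) := by
      intro L
      induction L with
      | nil => simp
      | cons a L ih =>
        simp only [List.map_cons, List.sum_cons, ih, List.count_cons, List.count_nil]
        by_cases h : a = s
        · simp [h]; ring
        · simp [h]
    rw [key I]

theorem LP_set_nonempty (I : List ℚ) (hI : ∀ a ∈ I, a ≤ 1) :
    {t : ℝ | ∃ z : List (List ℚ × ℝ), IsFracSol I z ∧ (z.map Prod.snd).sum = t}.Nonempty :=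
  ⟨_, _, fracSol_singletons I hI, rfl⟩

theorem sum_map_config (I c : List ℚ) (y : ℚ → ℝ) (hc : ∀ s ∈ c, s ∈ I) :
    (c.map y).sum = ∑ s ∈ I.toFinset, (c.count s : ℝ) * y s := by
  rw [Finset.sum_list_map_count]
  have hsub : c.toFinset ⊆ I.toFinset := by
    intro s hs
    rw [List.mem_toFinset] at hs ⊢
    exact hc s hs
  rw [← Finset.sum_subset hsub]
  · refine Finset.sum_congr rfl ?_
    intro s _
    simp [nsmul_eq_mul]
  · intro s _ hs
    rw [List.mem_toFinset] at hs
    simp [List.count_eq_zero_of_not_mem hs]

/-- Weak duality for the configuration LP. -/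
theorem dual_le_total (I : List ℚ) (y : ℚ → ℝ) (hy0 : ∀ s ∈ I, 0 ≤ y s)
    (hy : ∀ c, IsConfig I c → (c.map y).sum ≤ 1)
    (z : List (List ℚ × ℝ)) (hz : IsFracSol I z) :
    (I.map y).sum ≤ (z.map Prod.snd).sum := by
  have step1 : (I.map y).sum = ∑ s ∈ I.toFinset, (I.count s : ℝ) * y s :=
    sum_map_config I I y (fun s hs => hs)
  have step2 : ∑ s ∈ I.toFinset, (I.count s : ℝ) * y s ≤
      ∑ s ∈ I.toFinset, (z.map (fun p => p.2 * (p.1.count s : ℝ))).sum * y s := by
    refine Finset.sum_le_sum ?_
    intro s hs
    rw [List.mem_toFinset] at hs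
    exact mul_le_mul_of_nonneg_right (hz.2 s hs) (hy0 s hs)
  have step3 : ∀ z : List (List ℚ × ℝ), (∀ p ∈ z, IsConfig I p.1 ∧ 0 ≤ p.2) →
      ∑ s ∈ I.toFinset, (z.map (fun p => p.2 * (p.1.count s : ℝ))).sum * y s ≤
        (z.map Prod.snd).sum := by
    intro z
    induction z with
    | nil => intro _; simp
    | cons p z ih =>
      intro hpz
      have hp := hpz p (by simp)
      have ih' := ih (fun q hq => hpz q (by simp [hq]))
      have e : ∑ s ∈ I.toFinset, ((p :: z).map (fun p => p.2 * (p.1.count s : ℝ))).sum * y s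
          = p.2 * ∑ s ∈ I.toFinset, (p.1.count s : ℝ) * y s +
            ∑ s ∈ I.toFinset, (z.map (fun p => p.2 * (p.1.count s : ℝ))).sum * y s := by
        rw [Finset.mul_sum, ← Finset.sum_add_distrib]
        refine Finset.sum_congr rfl ?_
        intro s _
        simp only [List.map_cons, List.sum_cons]
        ring
      rw [e, ← sum_map_config I p.1 y hp.1.1]
      have h1 := hy p.1 hp.1
      have : p.2 * (p.1.map y).sum ≤ p.2 := by
        have := mul_le_mul_of_nonneg_left h1 hp.2
        simpa using this
      simp only [List.map_cons, List.sum_cons]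
      linarith
  rw [step1]
  exact le_trans step2 (step3 z hz.1)

theorem dual_le_LP (I : List ℚ) (hI : ∀ a ∈ I, a ≤ 1) (y : ℚ → ℝ) (hy0 : ∀ s ∈ I, 0 ≤ y s)
    (hy : ∀ c, IsConfig I c → (c.map y).sum ≤ 1) : (I.map y).sum ≤ LP I := by
  refine le_csInf (LP_set_nonempty I hI) ?_
  rintro t ⟨z, hz, rfl⟩
  exact dual_le_total I y hy0 hy z hz

theorem LP_nonneg (I : List ℚ) : 0 ≤ LP I := by
  refine Real.sInf_nonneg ?_
  rintro t ⟨z, hz, rfl⟩
  refine List.sum_nonneg ?_
  intro x hx
  obtain ⟨p, hp, rfl⟩ := List.mem_map.1 hx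
  exact (hz.1 p hp).2

/-- The total size is a lower bound of the LP value. -/
theorem sum_le_LP (I : List ℚ) (hI : ∀ a ∈ I, 0 < a ∧ a ≤ 1) : ((I.sum : ℚ) : ℝ) ≤ LP I := by
  have h := dual_le_LP I (fun a ha => (hI a ha).2) (fun v => (v : ℝ))
    (fun s hs => by exact_mod_cast (hI s hs).1.le)
    (fun c hc => by
      have e : (c.map (fun v : ℚ => (v : ℝ))).sum = ((c.sum : ℚ) : ℝ) := by
        induction c with
        | nil => simp
        | cons a c ih =>
          have := ih ⟨fun s hs => hc.1 s (by simp [hs]), by
            have h1 := hc.2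
            have h2 := (hI a (hc.1 a (by simp))).1
            simp only [List.sum_cons] at h1
            linarith⟩
          simp only [List.map_cons, List.sum_cons, this]
          push_cast; ring
      rw [e]; exact_mod_cast hc.2)
  have e : (I.map (fun v : ℚ => (v : ℝ))).sum = ((I.sum : ℚ) : ℝ) := by
    clear h
    induction I with
    | nil => simp
    | cons a I ih =>
      have := ih (fun b hb => hI b (by simp [hb]))
      simp only [List.map_cons, List.sum_cons, this]
      push_cast; ring
  rw [e] at h
  exact h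

end Vale.Agent.H50.BinPack
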