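import Mathlib
import Vale.Agent.H50.BinPack.Basic

/-!
# Bin packing: dual solutions supported on the items of size more than 1/4
-/

namespace Vale.Agent.H50.BinPack

open List

/-- The weight function that is `0` on sizes at most `1/4` and `g` above. -/
noncomputable def mkY (g : ℚ → ℝ) : ℚ → ℝ := fun v => if v ≤ 1 / 4 then 0 else g v

theorem mkY_of_gt (g : ℚ → ℝ) {v : ℚ} (h : 1 / 4 < v) : mkY g v = g v := by
  unfold mkY
  rw [if_neg (not_le.2 h)]

theorem mkY_of_le (g : ℚ → ℝ) {v : ℚ} (h : v ≤ 1 / 4) : mkY g v = 0 := by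
  unfold mkY
  rw [if_pos h]

/-- The items of size more than `1/4` of a configuration: at most three, and they carry the
whole weight. -/
theorem config_heavy (I c : List ℚ) (hI : ∀ a ∈ I, 0 < a ∧ a ≤ 1) (hc : IsConfig I c) :
    ∃ c' : List ℚ, (∀ s ∈ c', s ∈ I ∧ 1 / 4 < s) ∧ c'.sum ≤ 1 ∧ c'.length ≤ 3 ∧
      ∀ g : ℚ → ℝ, (c.map (mkY g)).sum = (c'.map g).sum := by
  have key : ∀ c : List ℚ, (∀ s ∈ c, 0 < s) →
      (c.filter (fun s => decide (1 / 4 < s))).sum ≤ c.sum ∧
      ∀ g : ℚ → ℝ, (c.map (mkY g)).sum = ((c.filter (fun s => decide (1 / 4 < s))).map g).sum := by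
    intro c
    induction c with
    | nil => intro _; simp
    | cons a c ih =>
      intro hpos
      have ih' := ih (fun s hs => hpos s (by simp [hs]))
      have ha := hpos a (by simp)
      by_cases h : 1 / 4 < a
      · constructor
        · simp only [List.filter_cons, h, decide_true, if_true, List.sum_cons]
          linarith [ih'.1]
        · intro g
          simp only [List.filter_cons, h, decide_true, if_true, List.map_cons, List.sum_cons,
            ih'.2 g, mkY_of_gt g h]
      · constructor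
        · simp only [List.filter_cons, h, decide_false, List.sum_cons]
          simp only [Bool.false_eq_true, if_false]
          linarith [ih'.1]
        · intro g
          simp only [List.filter_cons, h, decide_false, List.map_cons, List.sum_cons,
            ih'.2 g, mkY_of_le g (not_lt.1 h)]
          simp
  have hpos : ∀ s ∈ c, 0 < s := fun s hs => (hI s (hc.1 s hs)).1
  obtain ⟨k1, k2⟩ := key c hpos
  refine ⟨c.filter (fun s => decide (1 / 4 < s)), ?_, le_trans k1 hc.2, ?_, k2⟩
  · intro s hs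
    rw [List.mem_filter] at hs
    exact ⟨hc.1 s hs.1, by simpa using hs.2⟩
  · have hsum := le_trans k1 hc.2
    have hmem : ∀ s ∈ c.filter (fun s => decide (1 / 4 < s)), 1 / 4 < s := by
      intro s hs
      rw [List.mem_filter] at hs
      simpa using hs.2
    generalize c.filter (fun s => decide (1 / 4 < s)) = L at hsum hmem
    rcases L with _ | ⟨a, _ | ⟨b, _ | ⟨d, _ | ⟨e, R⟩⟩⟩⟩
    · simp
    · simp
    · simp
    · simp
    · exfalso
      have ha := hmem a (by simp)
      have hb := hmem b (by simp)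
      have hd := hmem d (by simp)
      have he := hmem e (by simp)
      have hR : 0 ≤ R.sum := List.sum_nonneg (fun x hx => by
        have := hmem x (by simp [hx]); linarith)
      simp only [List.sum_cons] at hsum
      linarith

/-- Weak duality for weights supported on the items of size more than `1/4`: it suffices to
check single items, pairs and triples. -/
theorem feas_heavy (I : List ℚ) (hI : ∀ a ∈ I, 0 < a ∧ a ≤ 1) (g : ℚ → ℝ)
    (h1 : ∀ a ∈ I, 1 / 4 < a → 0 ≤ g a ∧ g a ≤ 1)
    (h2 : ∀ a ∈ I, ∀ b ∈ I, 1 / 4 < a → 1 / 4 < b → a + b ≤ 1 → g a + g b ≤ 1)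
    (h3 : ∀ a ∈ I, ∀ b ∈ I, ∀ c ∈ I, 1 / 4 < a → 1 / 4 < b → 1 / 4 < c → a + b + c ≤ 1 →
      g a + g b + g c ≤ 1) :
    (I.map (mkY g)).sum ≤ LP I := by
  refine dual_le_LP I (fun a ha => (hI a ha).2) (mkY g) ?_ ?_
  · intro s hs
    by_cases h : 1 / 4 < s
    · rw [mkY_of_gt g h]; exact (h1 s hs h).1
    · rw [mkY_of_le g (not_lt.1 h)]
  · intro c hc
    obtain ⟨c', hmem, hsum, hlen, hg⟩ := config_heavy I c hI hc
    rw [hg g]
    rcases c' with _ | ⟨a, _ | ⟨b, _ | ⟨d, _ | ⟨e, R⟩⟩⟩⟩
    · simp
    · have ha := hmem a (by simp)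
      simpa using (h1 a ha.1 ha.2).2
    · have ha := hmem a (by simp)
      have hb := hmem b (by simp)
      have := h2 a ha.1 b hb.1 ha.2 hb.2 (by simpa using hsum)
      simpa using this
    · have ha := hmem a (by simp)
      have hb := hmem b (by simp)
      have hd := hmem d (by simp)
      have := h3 a ha.1 b hb.1 d hd.1 ha.2 hb.2 hd.2 (by
        simp only [List.sum_cons, List.sum_nil] at hsum; linarith)
      simp only [List.map_cons, List.map_nil, List.sum_cons, List.sum_nil]
      linarith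
    · exfalso
      simp only [List.length_cons] at hlen
      omega

/-- The dual bound in the form used below: `I` is split into light items `T` and items `H` of
size more than `1/4`; the weights of `H` bound the LP value from below. -/
theorem dual_bound (I T H : List ℚ) (hperm : I ~ T ++ H) (hI : ∀ a ∈ I, 0 < a ∧ a ≤ 1)
    (hH : ∀ v ∈ H, 1 / 4 < v) (g : ℚ → ℝ)
    (h1 : ∀ a ∈ I, 1 / 4 < a → 0 ≤ g a ∧ g a ≤ 1)
    (h2 : ∀ a ∈ I, ∀ b ∈ I, 1 / 4 < a → 1 / 4 < b → a + b ≤ 1 → g a + g b ≤ 1)
    (h3 : ∀ a ∈ I, ∀ b ∈ I, ∀ c ∈ I, 1 / 4 < a → 1 / 4 < b → 1 / 4 < c → a + b + c ≤ 1 →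
      g a + g b + g c ≤ 1) :
    (H.map g).sum ≤ LP I := by
  have h := feas_heavy I hI g h1 h2 h3
  have e1 : (I.map (mkY g)).sum = (T.map (mkY g)).sum + (H.map (mkY g)).sum := by
    rw [(hperm.map (mkY g)).sum_eq, List.map_append, List.sum_append]
  have e2 : (H.map (mkY g)).sum = (H.map g).sum := by
    congr 1
    exact List.map_congr_left (fun v hv => mkY_of_gt g (hH v hv))
  have e3 : 0 ≤ (T.map (mkY g)).sum := by
    refine List.sum_nonneg ?_
    intro x hx
    obtain ⟨v, hv, rfl⟩ := List.mem_map.1 hx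
    have hvI : v ∈ I := hperm.mem_iff.2 (by simp [hv])
    by_cases h4 : 1 / 4 < v
    · rw [mkY_of_gt g h4]; exact (h1 v hvI h4).1
    · rw [mkY_of_le g (not_lt.1 h4)]
  linarith

theorem sum_map_ge (L : List ℚ) (g : ℚ → ℝ) (c : ℝ) (h : ∀ v ∈ L, c ≤ g v) :
    (L.length : ℝ) * c ≤ (L.map g).sum := by
  induction L with
  | nil => simp
  | cons a L ih =>
    have h1 := h a (by simp)
    have h2 := ih (fun v hv => h v (by simp [hv]))
    simp only [List.length_cons, List.map_cons, List.sum_cons]
    push_cast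
    linarith

end Vale.Agent.H50.BinPack
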