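import Mathlib
import Vale.Agent.H50.BinPack.Dual

/-!
# Bin packing: instances with LP value at most 4 whose items all exceed 1/4

`Lb` is the list of items of size more than `1/2`, `Ss` the sorted list of items of size in
`(1/4, 1/2]`, and `T` the list of the remaining items.  We show that `Lb ++ Ss` can be packed
into five bins when `LP I ≤ 4`.
-/

namespace Vale.Agent.H50.BinPack

open List

theorem heavy_mem (I T H : List ℚ) (hperm : I ~ T ++ H) (hT : ∀ v ∈ T, v ≤ 1 / 4) :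
    ∀ a ∈ I, 1 / 4 < a → a ∈ H := by
  intro a ha h4
  rcases List.mem_append.1 (hperm.mem_iff.1 ha) with h | h
  · exact absurd (hT a h) (not_le.2 h4)
  · exact h

theorem heavy_gt (Lb Ss : List ℚ) (hb : ∀ v ∈ Lb, 1 / 2 < v)
    (hs : ∀ v ∈ Ss, 1 / 4 < v ∧ v ≤ 1 / 2) : ∀ v ∈ Lb ++ Ss, 1 / 4 < v := by
  intro v hv
  rcases List.mem_append.1 hv with h | h
  · have := hb v h; linarith
  · exact (hs v h).1

/-- Counting bounds: at most four items above `1/2`, and `n + 2B ≤ 12`. -/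
theorem count_bounds5 (I T Lb Ss : List ℚ) (hperm : I ~ T ++ (Lb ++ Ss))
    (hI : ∀ a ∈ I, 0 < a ∧ a ≤ 1) (hT : ∀ v ∈ T, v ≤ 1 / 4) (hb : ∀ v ∈ Lb, 1 / 2 < v)
    (hs : ∀ v ∈ Ss, 1 / 4 < v ∧ v ≤ 1 / 2) (hLP : LP I ≤ 4) :
    Lb.length ≤ 4 ∧ Ss.length + 2 * Lb.length ≤ 12 := by
  have hmem := heavy_mem I T (Lb ++ Ss) hperm hT
  have hH := heavy_gt Lb Ss hb hs
  constructor
  · obtain ⟨g, hg⟩ : ∃ g : ℚ → ℝ, ∀ v, g v = if 1 / 2 < v then 1 else 0 := ⟨_, fun _ => rfl⟩
    have cls : ∀ v ∈ Lb ++ Ss, (1 / 2 < v ∧ g v = 1) ∨ (v ≤ 1 / 2 ∧ g v = 0) := by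
      intro v _
      by_cases h : 1 / 2 < v
      · left; exact ⟨h, by rw [hg, if_pos h]⟩
      · right; exact ⟨not_lt.1 h, by rw [hg, if_neg h]⟩
    have hbound := dual_bound I T (Lb ++ Ss) hperm hI hH g
      (by
        intro a ha h4
        rcases cls a (hmem a ha h4) with ⟨_, e⟩ | ⟨_, e⟩ <;> constructor <;> linarith)
      (by
        intro a ha b hb' h4a h4b hab
        rcases cls a (hmem a ha h4a) with ⟨_, ea⟩ | ⟨_, ea⟩ <;>
        rcases cls b (hmem b hb' h4b) with ⟨_, eb⟩ | ⟨_, eb⟩ <;> linarith)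
      (by
        intro a ha b hb' c hc h4a h4b h4c habc
        rcases cls a (hmem a ha h4a) with ⟨_, ea⟩ | ⟨_, ea⟩ <;>
        rcases cls b (hmem b hb' h4b) with ⟨_, eb⟩ | ⟨_, eb⟩ <;>
        rcases cls c (hmem c hc h4c) with ⟨_, ec⟩ | ⟨_, ec⟩ <;> linarith)
    rw [List.map_append, List.sum_append] at hbound
    have e1 := sum_map_ge Lb g 1 (fun v hv => by rw [hg, if_pos (hb v hv)])
    have e2 := sum_map_ge Ss g 0 (fun v hv => by
      rw [hg, if_neg (not_lt.2 (hs v hv).2)])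
    have : (Lb.length : ℝ) ≤ 4 := by linarith
    exact_mod_cast this
  · obtain ⟨g, hg⟩ : ∃ g : ℚ → ℝ, ∀ v, g v = if 1 / 2 < v then 2 / 3 else 1 / 3 :=
      ⟨_, fun _ => rfl⟩
    have cls : ∀ v ∈ Lb ++ Ss, (1 / 2 < v ∧ g v = 2 / 3) ∨ (v ≤ 1 / 2 ∧ g v = 1 / 3) := by
      intro v _
      by_cases h : 1 / 2 < v
      · left; exact ⟨h, by rw [hg, if_pos h]⟩
      · right; exact ⟨not_lt.1 h, by rw [hg, if_neg h]⟩
    have hbound := dual_bound I T (Lb ++ Ss) hperm hI hH g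
      (by
        intro a ha h4
        rcases cls a (hmem a ha h4) with ⟨_, e⟩ | ⟨_, e⟩ <;> constructor <;> linarith)
      (by
        intro a ha b hb' h4a h4b hab
        rcases cls a (hmem a ha h4a) with ⟨_, ea⟩ | ⟨_, ea⟩ <;>
        rcases cls b (hmem b hb' h4b) with ⟨_, eb⟩ | ⟨_, eb⟩ <;> linarith)
      (by
        intro a ha b hb' c hc h4a h4b h4c habc
        rcases cls a (hmem a ha h4a) with ⟨_, ea⟩ | ⟨_, ea⟩ <;>
        rcases cls b (hmem b hb' h4b) with ⟨_, eb⟩ | ⟨_, eb⟩ <;>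
        rcases cls c (hmem c hc h4c) with ⟨_, ec⟩ | ⟨_, ec⟩ <;> linarith)
    rw [List.map_append, List.sum_append] at hbound
    have e1 := sum_map_ge Lb g (2 / 3) (fun v hv => by rw [hg, if_pos (hb v hv)])
    have e2 := sum_map_ge Ss g (1 / 3) (fun v hv => by
      rw [hg, if_neg (not_lt.2 (hs v hv).2)])
    have : (Ss.length : ℝ) + 2 * (Lb.length : ℝ) ≤ 12 := by linarith
    exact_mod_cast this

/-- Few items: every big item alone, the others in pairs. -/
theorem case_low (Lb Ss : List ℚ) (hb1 : ∀ v ∈ Lb, v ≤ 1) (hs : ∀ v ∈ Ss, v ≤ 1 / 2)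
    (hn : Ss.length + 2 * Lb.length ≤ 10) : Packable (Lb ++ Ss) 5 := by
  have p := (packable_singletons Lb hb1).append (packable_pairs Ss hs)
  exact p.mono (by omega)

/-- `n + 2B = 11`: one hosted small item or one triple of small items is needed. -/
theorem case11 (I T Lb Ss : List ℚ) (hperm : I ~ T ++ (Lb ++ Ss))
    (hI : ∀ a ∈ I, 0 < a ∧ a ≤ 1) (hT : ∀ v ∈ T, v ≤ 1 / 4) (hb : ∀ v ∈ Lb, 1 / 2 < v)
    (hs : ∀ v ∈ Ss, 1 / 4 < v ∧ v ≤ 1 / 2) (hsorted : Ss.Pairwise (· ≤ ·)) (hLP : LP I ≤ 4)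
    (hB : Lb.length ≤ 4) (hn : Ss.length + 2 * Lb.length = 11) : Packable (Lb ++ Ss) 5 := by
  have hmem := heavy_mem I T (Lb ++ Ss) hperm hT
  have hH := heavy_gt Lb Ss hb hs
  have hb1 : ∀ v ∈ Lb, v ≤ 1 := fun v hv => (hI v (hperm.mem_iff.2 (by simp [hv]))).2
  obtain ⟨s1, s2, s3, R, rfl⟩ : ∃ s1 s2 s3 R, Ss = s1 :: s2 :: s3 :: R := by
    rcases Ss with _ | ⟨s1, _ | ⟨s2, _ | ⟨s3, R⟩⟩⟩
    · simp at hn; omega
    · simp at hn; omega
    · simp at hn; omega
    · exact ⟨s1, s2, s3, R, rfl⟩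
  simp only [List.pairwise_cons, List.mem_cons, forall_eq_or_imp] at hsorted
  obtain ⟨⟨h12, h13, h1R⟩, ⟨h23, h2R⟩, h3R, -⟩ := hsorted
  have hs1 := hs s1 (by simp)
  have hs2 := hs s2 (by simp)
  have hs3 := hs s3 (by simp)
  have hR : ∀ v ∈ R, 1 / 4 < v ∧ v ≤ 1 / 2 := fun v hv => hs v (by simp [hv])
  have hlen : R.length + 2 * Lb.length = 8 := by
    simp only [List.length_cons] at hn; omega
  by_cases hhost : ∃ b ∈ Lb, b + s1 ≤ 1
  · obtain ⟨b, hbL, hbs⟩ := hhost
    obtain ⟨l1, l2, rfl⟩ := List.append_of_mem hbL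
    have p1 : Packable [b, s1] 1 := packable_one (by
      simp only [List.sum_cons, List.sum_nil]; linarith)
    have p2 : Packable (l1 ++ l2) (l1 ++ l2).length :=
      packable_singletons _ (fun v hv => hb1 v (by
        rcases List.mem_append.1 hv with h | h <;> simp [h]))
    have p3 := packable_pairs (s2 :: s3 :: R) (fun v hv => (hs v (by
      simp only [List.mem_cons] at hv ⊢; tauto)).2)
    have p := p1.append (p2.append p3)
    refine (p.perm ?_).mono ?_
    · rw [List.perm_iff_count]; intro a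
      simp only [List.count_append, List.count_cons, List.count_nil]; omega
    · simp only [List.length_append, List.length_cons] at hlen ⊢; omega
  · have hnh : ∀ b ∈ Lb, 1 < b + s1 := fun b hbL => not_le.1 (fun h => hhost ⟨b, hbL, h⟩)
    by_cases htri : s1 + s2 + s3 ≤ 1
    · have p1 : Packable [s1, s2, s3] 1 := packable_one (by
        simp only [List.sum_cons, List.sum_nil]; linarith)
      have p2 := packable_singletons Lb hb1
      have p3 := packable_pairs R (fun v hv => (hR v hv).2)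
      have p := p1.append (p2.append p3)
      refine (p.perm ?_).mono ?_
      · rw [List.perm_iff_count]; intro a
        simp only [List.count_append, List.count_cons, List.count_nil]; omega
      · omega
    · exfalso
      have htri' := not_le.1 htri
      obtain ⟨g, hg⟩ : ∃ g : ℚ → ℝ,
          ∀ v, g v = if 1 / 2 < v then 1 else if v < s3 then 0 else 1 / 2 := ⟨_, fun _ => rfl⟩
      have cls : ∀ v ∈ Lb ++ s1 :: s2 :: s3 :: R, (1 / 2 < v ∧ 1 < v + s1 ∧ g v = 1) ∨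
          (s1 ≤ v ∧ v ≤ 1 / 2 ∧ v < s3 ∧ g v = 0) ∨
          (s1 ≤ v ∧ v ≤ 1 / 2 ∧ s3 ≤ v ∧ g v = 1 / 2) := by
        intro v hv
        rcases List.mem_append.1 hv with h | h
        · left
          exact ⟨hb v h, hnh v h, by rw [hg, if_pos (hb v h)]⟩
        · have hv2 := (hs v h).2
          have hv1 : s1 ≤ v := by
            simp only [List.mem_cons] at h
            rcases h with h | h | h | h
            · rw [h]
            · rw [h]; exact h12
            · rw [h]; exact h13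
            · exact h1R v h
          by_cases h3 : v < s3
          · right; left
            exact ⟨hv1, hv2, h3, by rw [hg, if_neg (not_lt.2 hv2), if_pos h3]⟩
          · right; right
            exact ⟨hv1, hv2, not_lt.1 h3, by rw [hg, if_neg (not_lt.2 hv2), if_neg h3]⟩
      have hbound := dual_bound I T (Lb ++ s1 :: s2 :: s3 :: R) hperm hI hH g
        (by
          intro a ha h4
          rcases cls a (hmem a ha h4) with ⟨_, _, e⟩ | ⟨_, _, _, e⟩ | ⟨_, _, _, e⟩ <;>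
            constructor <;> linarith)
        (by
          intro a ha b hb' h4a h4b hab
          rcases cls a (hmem a ha h4a) with ⟨_, _, ea⟩ | ⟨_, _, _, ea⟩ | ⟨_, _, _, ea⟩ <;>
          rcases cls b (hmem b hb' h4b) with ⟨_, _, eb⟩ | ⟨_, _, _, eb⟩ | ⟨_, _, _, eb⟩ <;>
            linarith)
        (by
          intro a ha b hb' c hc h4a h4b h4c habc
          rcases cls a (hmem a ha h4a) with ⟨_, _, ea⟩ | ⟨_, _, _, ea⟩ | ⟨_, _, _, ea⟩ <;>
          rcases cls b (hmem b hb' h4b) with ⟨_, _, eb⟩ | ⟨_, _, _, eb⟩ | ⟨_, _, _, eb⟩ <;>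
          rcases cls c (hmem c hc h4c) with ⟨_, _, ec⟩ | ⟨_, _, _, ec⟩ | ⟨_, _, _, ec⟩ <;>
            linarith)
      rw [List.map_append, List.sum_append] at hbound
      simp only [List.map_cons, List.sum_cons] at hbound
      have e1 := sum_map_ge Lb g 1 (fun v hv => by rw [hg, if_pos (hb v hv)])
      have e2 := sum_map_ge R g (1 / 2) (fun v hv => by
        rw [hg, if_neg (not_lt.2 (hR v hv).2), if_neg (not_lt.2 (h3R v hv))])
      have g1 : 0 ≤ g s1 := by
        rw [hg, if_neg (not_lt.2 hs1.2)]; split_ifs <;> norm_num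
      have g2 : 0 ≤ g s2 := by
        rw [hg, if_neg (not_lt.2 hs2.2)]; split_ifs <;> norm_num
      have g3 : g s3 = 1 / 2 := by
        rw [hg, if_neg (not_lt.2 hs3.2), if_neg (lt_irrefl s3)]
      have hl : (R.length : ℝ) + 2 * (Lb.length : ℝ) = 8 := by exact_mod_cast hlen
      linarith

/-- `n + 2B = 12` with at least two big items: two big items host the two smallest small
items. -/
theorem case12_two (I T Lb Ss : List ℚ) (hperm : I ~ T ++ (Lb ++ Ss))
    (hI : ∀ a ∈ I, 0 < a ∧ a ≤ 1) (hT : ∀ v ∈ T, v ≤ 1 / 4) (hb : ∀ v ∈ Lb, 1 / 2 < v)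
    (hs : ∀ v ∈ Ss, 1 / 4 < v ∧ v ≤ 1 / 2) (hsorted : Ss.Pairwise (· ≤ ·)) (hLP : LP I ≤ 4)
    (hB : Lb.length ≤ 4) (hB2 : 2 ≤ Lb.length) (hn : Ss.length + 2 * Lb.length = 12) :
    Packable (Lb ++ Ss) 5 := by
  have hmem := heavy_mem I T (Lb ++ Ss) hperm hT
  have hH := heavy_gt Lb Ss hb hs
  have hb1 : ∀ v ∈ Lb, v ≤ 1 := fun v hv => (hI v (hperm.mem_iff.2 (by simp [hv]))).2
  obtain ⟨s1, s2, R, rfl⟩ : ∃ s1 s2 R, Ss = s1 :: s2 :: R := by
    rcases Ss with _ | ⟨s1, _ | ⟨s2, R⟩⟩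
    · simp at hn; omega
    · simp at hn; omega
    · exact ⟨s1, s2, R, rfl⟩
  simp only [List.pairwise_cons, List.mem_cons, forall_eq_or_imp] at hsorted
  obtain ⟨⟨h12, h1R⟩, h2R, -⟩ := hsorted
  have hs1 := hs s1 (by simp)
  have hs2 := hs s2 (by simp)
  have hR : ∀ v ∈ R, 1 / 4 < v ∧ v ≤ 1 / 2 := fun v hv => hs v (by simp [hv])
  have hlen : R.length + 2 * Lb.length = 10 := by
    simp only [List.length_cons] at hn; omega
  have hlenR : (R.length : ℝ) + 2 * (Lb.length : ℝ) = 10 := by exact_mod_cast hlen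
  have hB2R : (2 : ℝ) ≤ (Lb.length : ℝ) := by exact_mod_cast hB2
  have hs1le : ∀ v ∈ s1 :: s2 :: R, s1 ≤ v := by
    intro v h
    simp only [List.mem_cons] at h
    rcases h with h | h | h
    · rw [h]
    · rw [h]; exact h12
    · exact h1R v h
  -- first hosted item
  have hx : ∃ b ∈ Lb, b + s2 ≤ 1 := by
    by_contra hcon
    have hnh : ∀ b ∈ Lb, 1 < b + s2 := fun b hbL => not_le.1 (fun h => hcon ⟨b, hbL, h⟩)
    obtain ⟨g, hg⟩ : ∃ g : ℚ → ℝ,
        ∀ v, g v = if 1 / 2 < v then 1 else if v < s2 then 0 else 1 / 3 := ⟨_, fun _ => rfl⟩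
    have cls : ∀ v ∈ Lb ++ s1 :: s2 :: R, (1 / 2 < v ∧ 1 < v + s2 ∧ g v = 1) ∨
        (v ≤ 1 / 2 ∧ v < s2 ∧ g v = 0) ∨ (v ≤ 1 / 2 ∧ s2 ≤ v ∧ g v = 1 / 3) := by
      intro v hv
      rcases List.mem_append.1 hv with h | h
      · left
        exact ⟨hb v h, hnh v h, by rw [hg, if_pos (hb v h)]⟩
      · have hv2 := (hs v h).2
        by_cases h3 : v < s2
        · right; left
          exact ⟨hv2, h3, by rw [hg, if_neg (not_lt.2 hv2), if_pos h3]⟩
        · right; right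
          exact ⟨hv2, not_lt.1 h3, by rw [hg, if_neg (not_lt.2 hv2), if_neg h3]⟩
    have hbound := dual_bound I T (Lb ++ s1 :: s2 :: R) hperm hI hH g
      (by
        intro a ha h4
        rcases cls a (hmem a ha h4) with ⟨_, _, e⟩ | ⟨_, _, e⟩ | ⟨_, _, e⟩ <;>
          constructor <;> linarith)
      (by
        intro a ha b hb' h4a h4b hab
        rcases cls a (hmem a ha h4a) with ⟨_, _, ea⟩ | ⟨_, _, ea⟩ | ⟨_, _, ea⟩ <;>
        rcases cls b (hmem b hb' h4b) with ⟨_, _, eb⟩ | ⟨_, _, eb⟩ | ⟨_, _, eb⟩ <;>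
          linarith)
      (by
        intro a ha b hb' c hc h4a h4b h4c habc
        rcases cls a (hmem a ha h4a) with ⟨_, _, ea⟩ | ⟨_, _, ea⟩ | ⟨_, _, ea⟩ <;>
        rcases cls b (hmem b hb' h4b) with ⟨_, _, eb⟩ | ⟨_, _, eb⟩ | ⟨_, _, eb⟩ <;>
        rcases cls c (hmem c hc h4c) with ⟨_, _, ec⟩ | ⟨_, _, ec⟩ | ⟨_, _, ec⟩ <;>
          linarith)
    rw [List.map_append, List.sum_append] at hbound
    simp only [List.map_cons, List.sum_cons] at hbound
    have e1 := sum_map_ge Lb g 1 (fun v hv => by rw [hg, if_pos (hb v hv)])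
    have e2 := sum_map_ge R g (1 / 3) (fun v hv => by
      rw [hg, if_neg (not_lt.2 (hR v hv).2), if_neg (not_lt.2 (h2R v hv))])
    have g1 : 0 ≤ g s1 := by
      rw [hg, if_neg (not_lt.2 hs1.2)]; split_ifs <;> norm_num
    have g2 : g s2 = 1 / 3 := by
      rw [hg, if_neg (not_lt.2 hs2.2), if_neg (lt_irrefl s2)]
    linarith
  obtain ⟨b, hbL, hbs⟩ := hx
  obtain ⟨l1, l2, rfl⟩ := List.append_of_mem hbL
  -- second hosted item
  have hy : ∃ b' ∈ l1 ++ l2, b' + s1 ≤ 1 := by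
    by_contra hcon
    have hnh : ∀ b' ∈ l1 ++ l2, 1 < b' + s1 :=
      fun b' hbL' => not_le.1 (fun h => hcon ⟨b', hbL', h⟩)
    obtain ⟨g, hg⟩ : ∃ g : ℚ → ℝ,
        ∀ v, g v = if 1 / 2 < v then (if v + s1 ≤ 1 then 2 / 3 else 1) else 1 / 3 :=
      ⟨_, fun _ => rfl⟩
    have cls : ∀ v ∈ (l1 ++ b :: l2) ++ s1 :: s2 :: R, (1 / 2 < v ∧ g v = 2 / 3) ∨
        (1 / 2 < v ∧ 1 < v + s1 ∧ g v = 1) ∨ (s1 ≤ v ∧ v ≤ 1 / 2 ∧ g v = 1 / 3) := by
      intro v hv
      rcases List.mem_append.1 hv with h | h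
      · have hv2 := hb v h
        by_cases h3 : v + s1 ≤ 1
        · left
          exact ⟨hv2, by rw [hg, if_pos hv2, if_pos h3]⟩
        · right; left
          exact ⟨hv2, not_le.1 h3, by rw [hg, if_pos hv2, if_neg h3]⟩
      · right; right
        exact ⟨hs1le v h, (hs v h).2, by rw [hg, if_neg (not_lt.2 (hs v h).2)]⟩
    have hbound := dual_bound I T ((l1 ++ b :: l2) ++ s1 :: s2 :: R) hperm hI hH g
      (by
        intro a ha h4
        rcases cls a (hmem a ha h4) with ⟨_, e⟩ | ⟨_, _, e⟩ | ⟨_, _, e⟩ <;>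
          constructor <;> linarith)
      (by
        intro a ha b hb' h4a h4b hab
        rcases cls a (hmem a ha h4a) with ⟨_, ea⟩ | ⟨_, _, ea⟩ | ⟨_, _, ea⟩ <;>
        rcases cls b (hmem b hb' h4b) with ⟨_, eb⟩ | ⟨_, _, eb⟩ | ⟨_, _, eb⟩ <;>
          linarith)
      (by
        intro a ha b hb' c hc h4a h4b h4c habc
        rcases cls a (hmem a ha h4a) with ⟨_, ea⟩ | ⟨_, _, ea⟩ | ⟨_, _, ea⟩ <;>
        rcases cls b (hmem b hb' h4b) with ⟨_, eb⟩ | ⟨_, _, eb⟩ | ⟨_, _, eb⟩ <;>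
        rcases cls c (hmem c hc h4c) with ⟨_, ec⟩ | ⟨_, _, ec⟩ | ⟨_, _, ec⟩ <;>
          linarith)
    rw [List.map_append, List.sum_append, List.map_append, List.sum_append] at hbound
    simp only [List.map_cons, List.sum_cons] at hbound
    have hbig : ∀ v, 1 / 2 < v → 1 < v + s1 → g v = 1 := by
      intro v h1 h2
      rw [hg, if_pos h1, if_neg (not_le.2 h2)]
    have e1 := sum_map_ge l1 g 1 (fun v hv => by
      rw [hbig v (hb v (by simp [hv])) (hnh v (by simp [hv]))])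
    have e2 := sum_map_ge l2 g 1 (fun v hv => by
      rw [hbig v (hb v (by simp [hv])) (hnh v (by simp [hv]))])
    have e3 := sum_map_ge R g (1 / 3) (fun v hv => by
      rw [hg, if_neg (not_lt.2 (hR v hv).2)])
    have gb : 2 / 3 ≤ g b := by
      rw [hg, if_pos (hb b hbL)]; split_ifs <;> norm_num
    have g1 : g s1 = 1 / 3 := by rw [hg, if_neg (not_lt.2 hs1.2)]
    have g2 : g s2 = 1 / 3 := by rw [hg, if_neg (not_lt.2 hs2.2)]
    have hl : ((l1 ++ b :: l2).length : ℝ) = (l1.length : ℝ) + (l2.length : ℝ) + 1 := by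
      simp only [List.length_append, List.length_cons]; push_cast; ring
    rw [hl] at hlenR hB2R
    linarith
  obtain ⟨b', hbL', hbs'⟩ := hy
  obtain ⟨m1, m2, hm⟩ := List.append_of_mem hbL'
  have hb1' : ∀ v ∈ m1 ++ m2, v ≤ 1 := by
    intro v hv
    have hv' : v ∈ l1 ++ l2 := by
      rw [hm]
      rcases List.mem_append.1 hv with h | h <;> simp [h]
    exact hb1 v (by
      rcases List.mem_append.1 hv' with h | h <;> simp [h])
  have p1 : Packable [b, s2] 1 := packable_one (by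
    simp only [List.sum_cons, List.sum_nil]; linarith)
  have p2 : Packable [b', s1] 1 := packable_one (by
    simp only [List.sum_cons, List.sum_nil]; linarith)
  have p3 := packable_singletons (m1 ++ m2) hb1'
  have p4 := packable_pairs R (fun v hv => (hR v hv).2)
  have p := p1.append (p2.append (p3.append p4))
  have hlen2 := congrArg List.length hm
  refine (p.perm ?_).mono ?_
  · rw [List.perm_iff_count]; intro a
    have hc := congrArg (List.count a) hm
    simp only [List.count_append, List.count_cons, List.count_nil] at hc ⊢; omega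
  · simp only [List.length_append, List.length_cons] at hlen hlen2 ⊢; omega

end Vale.Agent.H50.BinPack
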