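import Mathlib
import Vale.Agent.H50.BinPack.Five

/-!
# Bin packing: the cases with one or no item above 1/2 (`n + 2B = 12`)
-/

namespace Vale.Agent.H50.BinPack

open List

/-- One big item `b` and ten small items. -/
theorem case12_one (I T Ss : List ℚ) (b : ℚ) (hperm : I ~ T ++ ([b] ++ Ss))
    (hI : ∀ a ∈ I, 0 < a ∧ a ≤ 1) (hT : ∀ v ∈ T, v ≤ 1 / 4) (hb : 1 / 2 < b)
    (hs : ∀ v ∈ Ss, 1 / 4 < v ∧ v ≤ 1 / 2) (hsorted : Ss.Pairwise (· ≤ ·)) (hLP : LP I ≤ 4)
    (hn : Ss.length = 10) : Packable ([b] ++ Ss) 5 := by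
  have hbL : ∀ v ∈ [b], 1 / 2 < v := by
    intro v hv; rw [List.mem_singleton] at hv; rw [hv]; exact hb
  have hmem := heavy_mem I T ([b] ++ Ss) hperm hT
  have hH := heavy_gt [b] Ss hbL hs
  obtain ⟨s1, s2, s3, s4, R, rfl⟩ : ∃ s1 s2 s3 s4 R, Ss = s1 :: s2 :: s3 :: s4 :: R := by
    rcases Ss with _ | ⟨s1, _ | ⟨s2, _ | ⟨s3, _ | ⟨s4, R⟩⟩⟩⟩
    · simp at hn
    · simp at hn
    · simp at hn
    · simp at hn
    · exact ⟨s1, s2, s3, s4, R, rfl⟩
  simp only [List.pairwise_cons, List.mem_cons, forall_eq_or_imp] at hsorted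
  obtain ⟨⟨h12, h13, h14, h1R⟩, ⟨h23, h24, h2R⟩, ⟨h34, h3R⟩, h4R, -⟩ := hsorted
  have hs1 := hs s1 (by simp)
  have hs2 := hs s2 (by simp)
  have hs3 := hs s3 (by simp)
  have hs4 := hs s4 (by simp)
  have hR : ∀ v ∈ R, 1 / 4 < v ∧ v ≤ 1 / 2 := fun v hv => hs v (by simp [hv])
  have hlen : R.length = 6 := by
    simp only [List.length_cons] at hn; omega
  have hlenR : (R.length : ℝ) = 6 := by exact_mod_cast hlen
  have pR := packable_pairs R (fun v hv => (hR v hv).2)
  have hcases : ∀ v ∈ [b] ++ s1 :: s2 :: s3 :: s4 :: R,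
      v = b ∨ v = s1 ∨ v = s2 ∨ v = s3 ∨ v = s4 ∨ v ∈ R := by
    intro v hv
    simpa using hv
  -- the big item hosts the smallest small item
  have hhost : b + s1 ≤ 1 := by
    by_contra hcon
    have hcon' := not_le.1 hcon
    obtain ⟨g, hg⟩ : ∃ g : ℚ → ℝ, ∀ v, g v = if 1 / 2 < v then 1 else 1 / 3 := ⟨_, fun _ => rfl⟩
    have cls : ∀ v ∈ [b] ++ s1 :: s2 :: s3 :: s4 :: R, (1 / 2 < v ∧ 1 < v + s1 ∧ g v = 1) ∨
        (s1 ≤ v ∧ v ≤ 1 / 2 ∧ g v = 1 / 3) := by
      intro v hv
      have e3 : ∀ w : ℚ, w ≤ 1 / 2 → g w = 1 / 3 := fun w hw => by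
        rw [hg, if_neg (not_lt.2 hw)]
      rcases hcases v hv with h | h | h | h | h | h
      · left; rw [h]; exact ⟨hb, hcon', by rw [hg, if_pos hb]⟩
      · right; rw [h]; exact ⟨le_rfl, hs1.2, e3 _ hs1.2⟩
      · right; rw [h]; exact ⟨h12, hs2.2, e3 _ hs2.2⟩
      · right; rw [h]; exact ⟨h13, hs3.2, e3 _ hs3.2⟩
      · right; rw [h]; exact ⟨h14, hs4.2, e3 _ hs4.2⟩
      · right; exact ⟨h1R v h, (hR v h).2, e3 _ (hR v h).2⟩
    have hbound := dual_bound I T ([b] ++ s1 :: s2 :: s3 :: s4 :: R) hperm hI hH g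
      (by
        intro a ha h4
        rcases cls a (hmem a ha h4) with ⟨_, _, e⟩ | ⟨_, _, e⟩ <;>
          constructor <;> linarith)
      (by
        intro a ha c hc h4a h4c hac
        rcases cls a (hmem a ha h4a) with ⟨_, _, ea⟩ | ⟨_, _, ea⟩ <;>
        rcases cls c (hmem c hc h4c) with ⟨_, _, ec⟩ | ⟨_, _, ec⟩ <;>
          linarith)
      (by
        intro a ha c hc d hd h4a h4c h4d hsum
        rcases cls a (hmem a ha h4a) with ⟨_, _, ea⟩ | ⟨_, _, ea⟩ <;>
        rcases cls c (hmem c hc h4c) with ⟨_, _, ec⟩ | ⟨_, _, ec⟩ <;>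
        rcases cls d (hmem d hd h4d) with ⟨_, _, ed⟩ | ⟨_, _, ed⟩ <;>
          linarith)
    rw [List.map_append, List.sum_append] at hbound
    simp only [List.map_cons, List.map_nil, List.sum_cons, List.sum_nil] at hbound
    have e3 : ∀ w : ℚ, w ≤ 1 / 2 → g w = 1 / 3 := fun w hw => by
      rw [hg, if_neg (not_lt.2 hw)]
    have e2 := sum_map_ge R g (1 / 3) (fun v hv => by rw [e3 v (hR v hv).2])
    have gb : g b = 1 := by rw [hg, if_pos hb]
    have g1 := e3 s1 hs1.2
    have g2 := e3 s2 hs2.2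
    have g3 := e3 s3 hs3.2
    have g4 := e3 s4 hs4.2
    linarith
  by_cases h4 : s4 ≤ 1 / 3
  · -- four low items
    have p1 : Packable [b, s1] 1 := packable_one (by
      simp only [List.sum_cons, List.sum_nil]; linarith)
    have p2 : Packable [s2, s3, s4] 1 := packable_one (by
      simp only [List.sum_cons, List.sum_nil]; linarith)
    have p := p1.append (p2.append pR)
    refine (p.perm ?_).mono ?_
    · rw [List.perm_iff_count]; intro a
      simp only [List.count_append, List.count_cons, List.count_nil]; omega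
    · omega
  · have h4' := not_le.1 h4
    by_cases h3 : s3 ≤ 1 / 3
    · by_cases hb4 : b + s4 ≤ 1
      · have p1 : Packable [b, s4] 1 := packable_one (by
          simp only [List.sum_cons, List.sum_nil]; linarith)
        have p2 : Packable [s1, s2, s3] 1 := packable_one (by
          simp only [List.sum_cons, List.sum_nil]; linarith)
        have p := p1.append (p2.append pR)
        refine (p.perm ?_).mono ?_
        · rw [List.perm_iff_count]; intro a
          simp only [List.count_append, List.count_cons, List.count_nil]; omega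
        · omega
      · exfalso
        have hb4' := not_le.1 hb4
        obtain ⟨g, hg⟩ : ∃ g : ℚ → ℝ,
            ∀ v, g v = if 1 / 2 < v then 1 else if 1 / 3 < v then 1 / 2 else 0 :=
          ⟨_, fun _ => rfl⟩
        have eh : ∀ w : ℚ, w ≤ 1 / 2 → 1 / 3 < w → g w = 1 / 2 := fun w hw hw' => by
          rw [hg, if_neg (not_lt.2 hw), if_pos hw']
        have el : ∀ w : ℚ, w ≤ 1 / 3 → g w = 0 := fun w hw => by
          rw [hg, if_neg (not_lt.2 (by linarith)), if_neg (not_lt.2 hw)]
        have cls : ∀ v ∈ [b] ++ s1 :: s2 :: s3 :: s4 :: R,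
            (1 / 2 < v ∧ 1 < v + s4 ∧ g v = 1) ∨
            (s4 ≤ v ∧ v ≤ 1 / 2 ∧ g v = 1 / 2) ∨ (v ≤ 1 / 3 ∧ g v = 0) := by
          intro v hv
          rcases hcases v hv with h | h | h | h | h | h
          · left; rw [h]; exact ⟨hb, hb4', by rw [hg, if_pos hb]⟩
          · right; right; rw [h]; exact ⟨by linarith, el _ (by linarith)⟩
          · right; right; rw [h]; exact ⟨by linarith, el _ (by linarith)⟩
          · right; right; rw [h]; exact ⟨h3, el _ h3⟩
          · right; left; rw [h]; exact ⟨le_rfl, hs4.2, eh _ hs4.2 h4'⟩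
          · right; left
            have := h4R v h
            exact ⟨this, (hR v h).2, eh _ (hR v h).2 (by linarith)⟩
        have hbound := dual_bound I T ([b] ++ s1 :: s2 :: s3 :: s4 :: R) hperm hI hH g
          (by
            intro a ha h4
            rcases cls a (hmem a ha h4) with ⟨_, _, e⟩ | ⟨_, _, e⟩ | ⟨_, e⟩ <;>
              constructor <;> linarith)
          (by
            intro a ha c hc h4a h4c hac
            rcases cls a (hmem a ha h4a) with ⟨_, _, ea⟩ | ⟨_, _, ea⟩ | ⟨_, ea⟩ <;>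
            rcases cls c (hmem c hc h4c) with ⟨_, _, ec⟩ | ⟨_, _, ec⟩ | ⟨_, ec⟩ <;>
              linarith)
          (by
            intro a ha c hc d hd h4a h4c h4d hsum
            rcases cls a (hmem a ha h4a) with ⟨_, _, ea⟩ | ⟨_, _, ea⟩ | ⟨_, ea⟩ <;>
            rcases cls c (hmem c hc h4c) with ⟨_, _, ec⟩ | ⟨_, _, ec⟩ | ⟨_, ec⟩ <;>
            rcases cls d (hmem d hd h4d) with ⟨_, _, ed⟩ | ⟨_, _, ed⟩ | ⟨_, ed⟩ <;>
              linarith)
        rw [List.map_append, List.sum_append] at hbound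
        simp only [List.map_cons, List.map_nil, List.sum_cons, List.sum_nil] at hbound
        have e2 := sum_map_ge R g (1 / 2) (fun v hv => by
          have := h4R v hv
          rw [eh v (hR v hv).2 (by linarith)])
        have gb : g b = 1 := by rw [hg, if_pos hb]
        have g1 := el s1 (by linarith)
        have g2 := el s2 (by linarith)
        have g3 := el s3 h3
        have g4 := eh s4 hs4.2 h4'
        linarith
    · exfalso
      have h3' := not_le.1 h3
      obtain ⟨g, hg⟩ : ∃ g : ℚ → ℝ, ∀ v, g v = if 1 / 3 < v then 1 / 2 else 0 :=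
        ⟨_, fun _ => rfl⟩
      have cls : ∀ v : ℚ, (1 / 3 < v ∧ g v = 1 / 2) ∨ (v ≤ 1 / 3 ∧ g v = 0) := by
        intro v
        by_cases h : 1 / 3 < v
        · left; exact ⟨h, by rw [hg, if_pos h]⟩
        · right; exact ⟨not_lt.1 h, by rw [hg, if_neg h]⟩
      have hbound := dual_bound I T ([b] ++ s1 :: s2 :: s3 :: s4 :: R) hperm hI hH g
        (by
          intro a _ _
          rcases cls a with ⟨_, e⟩ | ⟨_, e⟩ <;> constructor <;> linarith)
        (by
          intro a _ c _ _ _ _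
          rcases cls a with ⟨_, ea⟩ | ⟨_, ea⟩ <;>
          rcases cls c with ⟨_, ec⟩ | ⟨_, ec⟩ <;> linarith)
        (by
          intro a _ c _ d _ h4a h4c h4d hsum
          rcases cls a with ⟨_, ea⟩ | ⟨_, ea⟩ <;>
          rcases cls c with ⟨_, ec⟩ | ⟨_, ec⟩ <;>
          rcases cls d with ⟨_, ed⟩ | ⟨_, ed⟩ <;> linarith)
      rw [List.map_append, List.sum_append] at hbound
      simp only [List.map_cons, List.map_nil, List.sum_cons, List.sum_nil] at hbound
      have eh : ∀ w : ℚ, 1 / 3 < w → g w = 1 / 2 := fun w hw => by rw [hg, if_pos hw]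
      have e2 := sum_map_ge R g (1 / 2) (fun v hv => by
        have := h3R v hv
        rw [eh v (by linarith)])
      have gb := eh b (by linarith)
      have g1 : 0 ≤ g s1 := by rcases cls s1 with ⟨_, e⟩ | ⟨_, e⟩ <;> linarith
      have g2 : 0 ≤ g s2 := by rcases cls s2 with ⟨_, e⟩ | ⟨_, e⟩ <;> linarith
      have g3 := eh s3 h3'
      have g4 := eh s4 h4'
      linarith

end Vale.Agent.H50.BinPack
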