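import Mathlib
import Vale.Agent.H50.BinPack.Five

/-!
# Bin packing: twelve items in (1/4, 1/2] and no item above 1/2
-/

namespace Vale.Agent.H50.BinPack

open List

theorem zero_dualA (I T R : List ℚ) (s1 s2 s3 s4 s5 s6 : ℚ)
    (hperm : I ~ T ++ (s1 :: s2 :: s3 :: s4 :: s5 :: s6 :: R))
    (hI : ∀ a ∈ I, 0 < a ∧ a ≤ 1) (hT : ∀ v ∈ T, v ≤ 1 / 4)
    (hs : ∀ v ∈ s1 :: s2 :: s3 :: s4 :: s5 :: s6 :: R, 1 / 4 < v ∧ v ≤ 1 / 2)
    (hsorted : (s1 :: s2 :: s3 :: s4 :: s5 :: s6 :: R).Pairwise (· ≤ ·)) (hLP : LP I ≤ 4)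
    (hlen : R.length = 6) (h4 : 1 / 3 < s4) : False := by
  have hmem := heavy_mem I T _ hperm hT
  have hH : ∀ v ∈ s1 :: s2 :: s3 :: s4 :: s5 :: s6 :: R, 1 / 4 < v := fun v hv => (hs v hv).1
  simp only [List.pairwise_cons, List.mem_cons, forall_eq_or_imp] at hsorted
  obtain ⟨⟨h12, h13, h14, h15, h16, h1R⟩, ⟨h23, h24, h25, h26, h2R⟩, ⟨h34, h35, h36, h3R⟩,
    ⟨h45, h46, h4R⟩, ⟨h56, h5R⟩, h6R, -⟩ := hsorted
  have hs1 := hs s1 (by simp)
  have hs2 := hs s2 (by simp)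
  have hs3 := hs s3 (by simp)
  have hs4 := hs s4 (by simp)
  have hs5 := hs s5 (by simp)
  have hs6 := hs s6 (by simp)
  have hR : ∀ v ∈ R, 1 / 4 < v ∧ v ≤ 1 / 2 := fun v hv => hs v (by simp [hv])
  have hlenR : (R.length : ℝ) = 6 := by exact_mod_cast hlen
  have hcases : ∀ v ∈ s1 :: s2 :: s3 :: s4 :: s5 :: s6 :: R,
      v = s1 ∨ v = s2 ∨ v = s3 ∨ v = s4 ∨ v = s5 ∨ v = s6 ∨ v ∈ R := by
    intro v hv
    simpa using hv
  obtain ⟨g, hg⟩ : ∃ g : ℚ → ℝ, ∀ v, g v = if 1 / 3 < v then 1 / 2 else 0 :=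
    ⟨_, fun _ => rfl⟩
  have cls : ∀ v : ℚ, (1 / 3 < v ∧ g v = 1 / 2) ∨ (v ≤ 1 / 3 ∧ g v = 0) := by
    intro v
    by_cases h : 1 / 3 < v
    · left; exact ⟨h, by rw [hg, if_pos h]⟩
    · right; exact ⟨not_lt.1 h, by rw [hg, if_neg h]⟩
  have hbound := dual_bound I T (s1 :: s2 :: s3 :: s4 :: s5 :: s6 :: R) hperm hI hH g
    (by
      intro a _ _
      rcases cls a with ⟨_, e⟩ | ⟨_, e⟩ <;> constructor <;> linarith)
    (by
      intro a _ c _ _ _ _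
      rcases cls a with ⟨_, ea⟩ | ⟨_, ea⟩ <;>
      rcases cls c with ⟨_, ec⟩ | ⟨_, ec⟩ <;> linarith)
    (by
      intro a _ c _ d _ h4a h4c h4d hsum
      rcases cls a with ⟨_, ea⟩ | ⟨_, ea⟩ <;>
      rcases cls c with ⟨_, ec⟩ | ⟨_, ec⟩ <;>
      rcases cls d with ⟨_, ed⟩ | ⟨_, ed⟩ <;> linarith)
  simp only [List.map_cons, List.sum_cons] at hbound
  have eh : ∀ w : ℚ, 1 / 3 < w → g w = 1 / 2 := fun w hw => by rw [hg, if_pos hw]
  have e2 := sum_map_ge R g (1 / 2) (fun v hv => by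
    have := h4R v hv
    rw [eh v (by linarith)])
  have g1 : 0 ≤ g s1 := by rcases cls s1 with ⟨_, e⟩ | ⟨_, e⟩ <;> linarith
  have g2 : 0 ≤ g s2 := by rcases cls s2 with ⟨_, e⟩ | ⟨_, e⟩ <;> linarith
  have g3 : 0 ≤ g s3 := by rcases cls s3 with ⟨_, e⟩ | ⟨_, e⟩ <;> linarith
  have g4 := eh s4 h4
  have g5 := eh s5 (by linarith)
  have g6 := eh s6 (by linarith)
  linarith

theorem zero_dualB (I T R : List ℚ) (s1 s2 s3 s4 s5 s6 : ℚ)
    (hperm : I ~ T ++ (s1 :: s2 :: s3 :: s4 :: s5 :: s6 :: R))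
    (hI : ∀ a ∈ I, 0 < a ∧ a ≤ 1) (hT : ∀ v ∈ T, v ≤ 1 / 4)
    (hs : ∀ v ∈ s1 :: s2 :: s3 :: s4 :: s5 :: s6 :: R, 1 / 4 < v ∧ v ≤ 1 / 2)
    (hsorted : (s1 :: s2 :: s3 :: s4 :: s5 :: s6 :: R).Pairwise (· ≤ ·)) (hLP : LP I ≤ 4)
    (hlen : R.length = 6) (h5 : s5 ≤ 1 / 3) (h6 : 1 / 3 < s6)
    (ht : 1 < s1 + s2 + s6) : False := by
  have hmem := heavy_mem I T _ hperm hT
  have hH : ∀ v ∈ s1 :: s2 :: s3 :: s4 :: s5 :: s6 :: R, 1 / 4 < v := fun v hv => (hs v hv).1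
  simp only [List.pairwise_cons, List.mem_cons, forall_eq_or_imp] at hsorted
  obtain ⟨⟨h12, h13, h14, h15, h16, h1R⟩, ⟨h23, h24, h25, h26, h2R⟩, ⟨h34, h35, h36, h3R⟩,
    ⟨h45, h46, h4R⟩, ⟨h56, h5R⟩, h6R, -⟩ := hsorted
  have hs1 := hs s1 (by simp)
  have hs2 := hs s2 (by simp)
  have hs3 := hs s3 (by simp)
  have hs4 := hs s4 (by simp)
  have hs5 := hs s5 (by simp)
  have hs6 := hs s6 (by simp)
  have hR : ∀ v ∈ R, 1 / 4 < v ∧ v ≤ 1 / 2 := fun v hv => hs v (by simp [hv])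
  have hlenR : (R.length : ℝ) = 6 := by exact_mod_cast hlen
  have hcases : ∀ v ∈ s1 :: s2 :: s3 :: s4 :: s5 :: s6 :: R,
      v = s1 ∨ v = s2 ∨ v = s3 ∨ v = s4 ∨ v = s5 ∨ v = s6 ∨ v ∈ R := by
    intro v hv
    simpa using hv
  obtain ⟨g, hg⟩ : ∃ g : ℚ → ℝ, ∀ v, g v = if 1 / 3 < v then 1 / 2 else 1 / 4 :=
    ⟨_, fun _ => rfl⟩
  have eh : ∀ w : ℚ, 1 / 3 < w → g w = 1 / 2 := fun w hw => by rw [hg, if_pos hw]
  have el : ∀ w : ℚ, w ≤ 1 / 3 → g w = 1 / 4 := fun w hw => by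
    rw [hg, if_neg (not_lt.2 hw)]
  have cls : ∀ v ∈ s1 :: s2 :: s3 :: s4 :: s5 :: s6 :: R,
      (s6 ≤ v ∧ g v = 1 / 2) ∨ (s1 ≤ v ∧ v ≤ 1 / 3 ∧ g v = 1 / 4) := by
    intro v hv
    rcases hcases v hv with h | h | h | h | h | h | h
    · right; rw [h]; exact ⟨le_rfl, by linarith, el _ (by linarith)⟩
    · right; rw [h]; exact ⟨h12, by linarith, el _ (by linarith)⟩
    · right; rw [h]; exact ⟨h13, by linarith, el _ (by linarith)⟩
    · right; rw [h]; exact ⟨h14, by linarith, el _ (by linarith)⟩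
    · right; rw [h]; exact ⟨h15, h5, el _ h5⟩
    · left; rw [h]; exact ⟨le_rfl, eh _ h6⟩
    · left
      have := h6R v h
      exact ⟨this, eh _ (by linarith)⟩
  have hbound := dual_bound I T (s1 :: s2 :: s3 :: s4 :: s5 :: s6 :: R) hperm hI hH g
    (by
      intro a ha h4
      rcases cls a (hmem a ha h4) with ⟨_, e⟩ | ⟨_, _, e⟩ <;>
        constructor <;> linarith)
    (by
      intro a ha c hc h4a h4c hac
      rcases cls a (hmem a ha h4a) with ⟨_, ea⟩ | ⟨_, _, ea⟩ <;>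
      rcases cls c (hmem c hc h4c) with ⟨_, ec⟩ | ⟨_, _, ec⟩ <;>
        linarith)
    (by
      intro a ha c hc d hd h4a h4c h4d hsum
      rcases cls a (hmem a ha h4a) with ⟨_, ea⟩ | ⟨_, _, ea⟩ <;>
      rcases cls c (hmem c hc h4c) with ⟨_, ec⟩ | ⟨_, _, ec⟩ <;>
      rcases cls d (hmem d hd h4d) with ⟨_, ed⟩ | ⟨_, _, ed⟩ <;>
        linarith)
  simp only [List.map_cons, List.sum_cons] at hbound
  have e2 := sum_map_ge R g (1 / 2) (fun v hv => by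
    have := h6R v hv
    rw [eh v (by linarith)])
  have g1 := el s1 (by linarith)
  have g2 := el s2 (by linarith)
  have g3 := el s3 (by linarith)
  have g4 := el s4 (by linarith)
  have g5 := el s5 h5
  have g6 := eh s6 h6
  linarith

theorem zero_dualC (I T R : List ℚ) (s1 s2 s3 s4 s5 s6 : ℚ)
    (hperm : I ~ T ++ (s1 :: s2 :: s3 :: s4 :: s5 :: s6 :: R))
    (hI : ∀ a ∈ I, 0 < a ∧ a ≤ 1) (hT : ∀ v ∈ T, v ≤ 1 / 4)
    (hs : ∀ v ∈ s1 :: s2 :: s3 :: s4 :: s5 :: s6 :: R, 1 / 4 < v ∧ v ≤ 1 / 2)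
    (hsorted : (s1 :: s2 :: s3 :: s4 :: s5 :: s6 :: R).Pairwise (· ≤ ·)) (hLP : LP I ≤ 4)
    (hlen : R.length = 6) (h4 : s4 ≤ 1 / 3) (h5 : 1 / 3 < s5)
    (hl : 1 < s1 + 2 * s5) : False := by
  have hmem := heavy_mem I T _ hperm hT
  have hH : ∀ v ∈ s1 :: s2 :: s3 :: s4 :: s5 :: s6 :: R, 1 / 4 < v := fun v hv => (hs v hv).1
  simp only [List.pairwise_cons, List.mem_cons, forall_eq_or_imp] at hsorted
  obtain ⟨⟨h12, h13, h14, h15, h16, h1R⟩, ⟨h23, h24, h25, h26, h2R⟩, ⟨h34, h35, h36, h3R⟩,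
    ⟨h45, h46, h4R⟩, ⟨h56, h5R⟩, h6R, -⟩ := hsorted
  have hs1 := hs s1 (by simp)
  have hs2 := hs s2 (by simp)
  have hs3 := hs s3 (by simp)
  have hs4 := hs s4 (by simp)
  have hs5 := hs s5 (by simp)
  have hs6 := hs s6 (by simp)
  have hR : ∀ v ∈ R, 1 / 4 < v ∧ v ≤ 1 / 2 := fun v hv => hs v (by simp [hv])
  have hlenR : (R.length : ℝ) = 6 := by exact_mod_cast hlen
  have hcases : ∀ v ∈ s1 :: s2 :: s3 :: s4 :: s5 :: s6 :: R,
      v = s1 ∨ v = s2 ∨ v = s3 ∨ v = s4 ∨ v = s5 ∨ v = s6 ∨ v ∈ R := by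
    intro v hv
    simpa using hv
  obtain ⟨g, hg⟩ : ∃ g : ℚ → ℝ, ∀ v, g v = if 1 / 3 < v then 1 / 2 else 1 / 4 :=
    ⟨_, fun _ => rfl⟩
  have eh : ∀ w : ℚ, 1 / 3 < w → g w = 1 / 2 := fun w hw => by rw [hg, if_pos hw]
  have el : ∀ w : ℚ, w ≤ 1 / 3 → g w = 1 / 4 := fun w hw => by
    rw [hg, if_neg (not_lt.2 hw)]
  have cls : ∀ v ∈ s1 :: s2 :: s3 :: s4 :: s5 :: s6 :: R,
      (s5 ≤ v ∧ g v = 1 / 2) ∨ (s1 ≤ v ∧ v ≤ 1 / 3 ∧ g v = 1 / 4) := by
    intro v hv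
    rcases hcases v hv with h | h | h | h | h | h | h
    · right; rw [h]; exact ⟨le_rfl, by linarith, el _ (by linarith)⟩
    · right; rw [h]; exact ⟨h12, by linarith, el _ (by linarith)⟩
    · right; rw [h]; exact ⟨h13, by linarith, el _ (by linarith)⟩
    · right; rw [h]; exact ⟨h14, h4, el _ h4⟩
    · left; rw [h]; exact ⟨le_rfl, eh _ h5⟩
    · left; rw [h]; exact ⟨h56, eh _ (by linarith)⟩
    · left
      have := h5R v h
      exact ⟨this, eh _ (by linarith)⟩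
  have hbound := dual_bound I T (s1 :: s2 :: s3 :: s4 :: s5 :: s6 :: R) hperm hI hH g
    (by
      intro a ha h4
      rcases cls a (hmem a ha h4) with ⟨_, e⟩ | ⟨_, _, e⟩ <;>
        constructor <;> linarith)
    (by
      intro a ha c hc h4a h4c hac
      rcases cls a (hmem a ha h4a) with ⟨_, ea⟩ | ⟨_, _, ea⟩ <;>
      rcases cls c (hmem c hc h4c) with ⟨_, ec⟩ | ⟨_, _, ec⟩ <;>
        linarith)
    (by
      intro a ha c hc d hd h4a h4c h4d hsum
      rcases cls a (hmem a ha h4a) with ⟨_, ea⟩ | ⟨_, _, ea⟩ <;>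
      rcases cls c (hmem c hc h4c) with ⟨_, ec⟩ | ⟨_, _, ec⟩ <;>
      rcases cls d (hmem d hd h4d) with ⟨_, ed⟩ | ⟨_, _, ed⟩ <;>
        linarith)
  simp only [List.map_cons, List.sum_cons] at hbound
  have e2 := sum_map_ge R g (1 / 2) (fun v hv => by
    have := h5R v hv
    rw [eh v (by linarith)])
  have g1 := el s1 (by linarith)
  have g2 := el s2 (by linarith)
  have g3 := el s3 (by linarith)
  have g4 := el s4 h4
  have g5 := eh s5 h5
  have g6 := eh s6 (by linarith)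
  linarith

theorem zero_dualD (I T R : List ℚ) (s1 s2 s3 s4 s5 s6 : ℚ)
    (hperm : I ~ T ++ (s1 :: s2 :: s3 :: s4 :: s5 :: s6 :: R))
    (hI : ∀ a ∈ I, 0 < a ∧ a ≤ 1) (hT : ∀ v ∈ T, v ≤ 1 / 4)
    (hs : ∀ v ∈ s1 :: s2 :: s3 :: s4 :: s5 :: s6 :: R, 1 / 4 < v ∧ v ≤ 1 / 2)
    (hsorted : (s1 :: s2 :: s3 :: s4 :: s5 :: s6 :: R).Pairwise (· ≤ ·)) (hLP : LP I ≤ 4)
    (hlen : R.length = 6) (ht : 1 < s1 + s5 + s6)
    (hl : s1 + 2 * s5 ≤ 1) : False := by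
  have hmem := heavy_mem I T _ hperm hT
  have hH : ∀ v ∈ s1 :: s2 :: s3 :: s4 :: s5 :: s6 :: R, 1 / 4 < v := fun v hv => (hs v hv).1
  simp only [List.pairwise_cons, List.mem_cons, forall_eq_or_imp] at hsorted
  obtain ⟨⟨h12, h13, h14, h15, h16, h1R⟩, ⟨h23, h24, h25, h26, h2R⟩, ⟨h34, h35, h36, h3R⟩,
    ⟨h45, h46, h4R⟩, ⟨h56, h5R⟩, h6R, -⟩ := hsorted
  have hs1 := hs s1 (by simp)
  have hs2 := hs s2 (by simp)
  have hs3 := hs s3 (by simp)
  have hs4 := hs s4 (by simp)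
  have hs5 := hs s5 (by simp)
  have hs6 := hs s6 (by simp)
  have hR : ∀ v ∈ R, 1 / 4 < v ∧ v ≤ 1 / 2 := fun v hv => hs v (by simp [hv])
  have hlenR : (R.length : ℝ) = 6 := by exact_mod_cast hlen
  have hcases : ∀ v ∈ s1 :: s2 :: s3 :: s4 :: s5 :: s6 :: R,
      v = s1 ∨ v = s2 ∨ v = s3 ∨ v = s4 ∨ v = s5 ∨ v = s6 ∨ v ∈ R := by
    intro v hv
    simpa using hv
  have h56' : s5 < s6 := by linarith
  obtain ⟨g, hg⟩ : ∃ g : ℚ → ℝ, ∀ v, g v = if v ≤ s5 then 1 / 4 else 1 / 2 :=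
    ⟨_, fun _ => rfl⟩
  have eh : ∀ w : ℚ, s5 < w → g w = 1 / 2 := fun w hw => by
    rw [hg, if_neg (not_le.2 hw)]
  have el : ∀ w : ℚ, w ≤ s5 → g w = 1 / 4 := fun w hw => by
    rw [hg, if_pos hw]
  have cls : ∀ v ∈ s1 :: s2 :: s3 :: s4 :: s5 :: s6 :: R,
      (s6 ≤ v ∧ g v = 1 / 2) ∨ (s1 ≤ v ∧ v ≤ 1 / 2 ∧ g v = 1 / 4) := by
    intro v hv
    have hv2 := (hs v hv).2
    rcases hcases v hv with h | h | h | h | h | h | h
    · right; rw [h]; exact ⟨le_rfl, hs1.2, el _ h15⟩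
    · right; rw [h]; exact ⟨h12, hs2.2, el _ h25⟩
    · right; rw [h]; exact ⟨h13, hs3.2, el _ h35⟩
    · right; rw [h]; exact ⟨h14, hs4.2, el _ h45⟩
    · right; rw [h]; exact ⟨h15, hs5.2, el _ le_rfl⟩
    · left; rw [h]; exact ⟨le_rfl, eh _ h56'⟩
    · left
      have := h6R v h
      exact ⟨this, eh _ (by linarith)⟩
  have hbound := dual_bound I T (s1 :: s2 :: s3 :: s4 :: s5 :: s6 :: R) hperm hI hH g
    (by
      intro a ha h4
      rcases cls a (hmem a ha h4) with ⟨_, e⟩ | ⟨_, _, e⟩ <;>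
        constructor <;> linarith)
    (by
      intro a ha c hc h4a h4c hac
      rcases cls a (hmem a ha h4a) with ⟨_, ea⟩ | ⟨_, _, ea⟩ <;>
      rcases cls c (hmem c hc h4c) with ⟨_, ec⟩ | ⟨_, _, ec⟩ <;>
        linarith)
    (by
      intro a ha c hc d hd h4a h4c h4d hsum
      rcases cls a (hmem a ha h4a) with ⟨_, ea⟩ | ⟨_, _, ea⟩ <;>
      rcases cls c (hmem c hc h4c) with ⟨_, ec⟩ | ⟨_, _, ec⟩ <;>
      rcases cls d (hmem d hd h4d) with ⟨_, ed⟩ | ⟨_, _, ed⟩ <;>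
        linarith)
  simp only [List.map_cons, List.sum_cons] at hbound
  have e2 := sum_map_ge R g (1 / 2) (fun v hv => by
    have := h6R v hv
    rw [eh v (by linarith)])
  have g1 := el s1 h15
  have g2 := el s2 h25
  have g3 := el s3 h35
  have g4 := el s4 h45
  have g5 := el s5 le_rfl
  have g6 := eh s6 h56'
  linarith

/-- No big item and twelve small items. -/
theorem case12_zero (I T Ss : List ℚ) (hperm : I ~ T ++ Ss)
    (hI : ∀ a ∈ I, 0 < a ∧ a ≤ 1) (hT : ∀ v ∈ T, v ≤ 1 / 4)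
    (hs : ∀ v ∈ Ss, 1 / 4 < v ∧ v ≤ 1 / 2) (hsorted : Ss.Pairwise (· ≤ ·)) (hLP : LP I ≤ 4)
    (hn : Ss.length = 12) : Packable Ss 5 := by
  obtain ⟨s1, s2, s3, s4, s5, s6, R, rfl⟩ :
      ∃ s1 s2 s3 s4 s5 s6 R, Ss = s1 :: s2 :: s3 :: s4 :: s5 :: s6 :: R := by
    rcases Ss with _ | ⟨s1, _ | ⟨s2, _ | ⟨s3, _ | ⟨s4, _ | ⟨s5, _ | ⟨s6, R⟩⟩⟩⟩⟩⟩
    · simp at hn
    · simp at hn
    · simp at hn
    · simp at hn
    · simp at hn
    · simp at hn
    · exact ⟨s1, s2, s3, s4, s5, s6, R, rfl⟩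
  have hlen : R.length = 6 := by
    simp only [List.length_cons] at hn; omega
  have hsorted' := hsorted
  simp only [List.pairwise_cons, List.mem_cons, forall_eq_or_imp] at hsorted
  obtain ⟨⟨h12, h13, h14, h15, h16, h1R⟩, ⟨h23, h24, h25, h26, h2R⟩, ⟨h34, h35, h36, h3R⟩,
    ⟨h45, h46, h4R⟩, ⟨h56, h5R⟩, h6R, -⟩ := hsorted
  have hs1 := hs s1 (by simp)
  have hs2 := hs s2 (by simp)
  have hs3 := hs s3 (by simp)
  have hs4 := hs s4 (by simp)
  have hs5 := hs s5 (by simp)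
  have hs6 := hs s6 (by simp)
  have hR : ∀ v ∈ R, 1 / 4 < v ∧ v ≤ 1 / 2 := fun v hv => hs v (by simp [hv])
  have pR := packable_pairs R (fun v hv => (hR v hv).2)
  by_cases h6 : s6 ≤ 1 / 3
  · -- six low items
    have p1 : Packable [s1, s2, s3] 1 := packable_one (by
      simp only [List.sum_cons, List.sum_nil]; linarith)
    have p2 : Packable [s4, s5, s6] 1 := packable_one (by
      simp only [List.sum_cons, List.sum_nil]; linarith)
    have p := p1.append (p2.append pR)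
    refine (p.perm ?_).mono ?_
    · rw [List.perm_iff_count]; intro a
      simp only [List.count_append, List.count_cons, List.count_nil]; omega
    · omega
  · have h6' := not_le.1 h6
    by_cases h4 : s4 ≤ 1 / 3
    · by_cases h5 : s5 ≤ 1 / 3
      · -- five low items
        by_cases ht : s1 + s2 + s6 ≤ 1
        · have p1 : Packable [s1, s2, s6] 1 := packable_one (by
            simp only [List.sum_cons, List.sum_nil]; linarith)
          have p2 : Packable [s3, s4, s5] 1 := packable_one (by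
            simp only [List.sum_cons, List.sum_nil]; linarith)
          have p := p1.append (p2.append pR)
          refine (p.perm ?_).mono ?_
          · rw [List.perm_iff_count]; intro a
            simp only [List.count_append, List.count_cons, List.count_nil]; omega
          · omega
        · exact (zero_dualB I T R s1 s2 s3 s4 s5 s6 hperm hI hT hs hsorted' hLP hlen h5 h6'
            (not_le.1 ht)).elim
      · -- four low items
        have h5' := not_le.1 h5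
        by_cases ht : s1 + s5 + s6 ≤ 1
        · have p1 : Packable [s1, s5, s6] 1 := packable_one (by
            simp only [List.sum_cons, List.sum_nil]; linarith)
          have p2 : Packable [s2, s3, s4] 1 := packable_one (by
            simp only [List.sum_cons, List.sum_nil]; linarith)
          have p := p1.append (p2.append pR)
          refine (p.perm ?_).mono ?_
          · rw [List.perm_iff_count]; intro a
            simp only [List.count_append, List.count_cons, List.count_nil]; omega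
          · omega
        · by_cases hl : 1 < s1 + 2 * s5
          · exact (zero_dualC I T R s1 s2 s3 s4 s5 s6 hperm hI hT hs hsorted' hLP hlen h4 h5'
              hl).elim
          · exact (zero_dualD I T R s1 s2 s3 s4 s5 s6 hperm hI hT hs hsorted' hLP hlen
              (not_le.1 ht) (not_lt.1 hl)).elim
    · -- at most three low items
      exact (zero_dualA I T R s1 s2 s3 s4 s5 s6 hperm hI hT hs hsorted' hLP hlen
        (not_le.1 h4)).elim

end Vale.Agent.H50.BinPack
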