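import Vale.Agent.H50.BinPack.Basic

/-!
# Bin packing: kernel-checkable upper bounds for the configuration LP

`LP_le_of_fracSol`: every fractional solution bounds `LP` from above.
`LP_le_of_lpCheck`: the same for instances given by integer data in the `(2,3)` frame, item
sizes `1/3 + x/D` with integer deviations `x`, where the fractional solution is a list of
configurations (lists of deviations) with natural weight numerators over a common denominator
`W`; the hypothesis is a Boolean check that the kernel can evaluate.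
-/

namespace Vale.Agent.H50.BinPack

/-- Every fractional solution gives an upper bound for `LP`. -/
theorem LP_le_of_fracSol {I : List ℚ} {z : List (List ℚ × ℝ)} (h : IsFracSol I z) :
    LP I ≤ (z.map Prod.snd).sum := by
  refine csInf_le ⟨0, ?_⟩ ⟨z, h, rfl⟩
  rintro t ⟨z', hz', rfl⟩
  refine List.sum_nonneg ?_
  intro x hx
  obtain ⟨p, hp, rfl⟩ := List.mem_map.1 hx
  exact (hz'.1 p hp).2

/-- Item size in the `(2,3)` frame: `1/3 + x/D` for the integer deviation `x`. -/
def size23 (D : ℤ) (x : ℤ) : ℚ := 1 / 3 + (x : ℚ) / (D : ℚ)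

theorem size23_injective (D : ℤ) (hD : 0 < D) : Function.Injective (size23 D) := by
  intro x y h
  unfold size23 at h
  have hD' : (D : ℚ) ≠ 0 := by exact_mod_cast hD.ne'
  have h2 : (x : ℚ) / (D : ℚ) = (y : ℚ) / (D : ℚ) := by linarith
  have h3 : (x : ℚ) = (y : ℚ) := by
    field_simp at h2
    exact h2
  exact_mod_cast h3

theorem sum_map_size23 (D : ℤ) (c : List ℤ) :
    (c.map (size23 D)).sum = (c.length : ℚ) / 3 + ((c.sum : ℤ) : ℚ) / (D : ℚ) := by
  induction c with
  | nil => simp
  | cons a c ih =>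
    simp only [List.map_cons, List.sum_cons, ih, List.length_cons, size23]
    push_cast
    ring

/-- A list of deviations is a configuration iff `length * D + 3 * sum ≤ 3 * D`. -/
theorem sum_map_size23_le_one (D : ℤ) (hD : 0 < D) (c : List ℤ) :
    (c.map (size23 D)).sum ≤ 1 ↔ (c.length : ℤ) * D + 3 * c.sum ≤ 3 * D := by
  rw [sum_map_size23]
  have hD' : (0 : ℚ) < (D : ℚ) := by exact_mod_cast hD
  constructor
  · intro h
    have h1 : (c.length : ℚ) / 3 + ((c.sum : ℤ) : ℚ) / (D : ℚ) =
        ((c.length : ℚ) * D + 3 * ((c.sum : ℤ) : ℚ)) / (3 * D) := by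
      field_simp
    rw [h1, div_le_one (by positivity)] at h
    exact_mod_cast h
  · intro h
    have h1 : (c.length : ℚ) / 3 + ((c.sum : ℤ) : ℚ) / (D : ℚ) =
        ((c.length : ℚ) * D + 3 * ((c.sum : ℤ) : ℚ)) / (3 * D) := by
      field_simp
    rw [h1, div_le_one (by positivity)]
    exact_mod_cast h

/-- Upper bound for `LP` from integer data (propositional form). -/
theorem LP_le_of_cert (D : ℤ) (hD : 0 < D) (W : ℕ) (hW : 0 < W) (xs : List ℤ)
    (z : List (List ℤ × ℕ))
    (hcfg : ∀ p ∈ z, (∀ b ∈ p.1, b ∈ xs) ∧ (p.1.length : ℤ) * D + 3 * p.1.sum ≤ 3 * D)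
    (hcov : ∀ x ∈ xs, xs.count x * W ≤ (z.map (fun p => p.2 * p.1.count x)).sum) :
    LP (xs.map (size23 D)) ≤ (((z.map Prod.snd).sum : ℕ) : ℝ) / (W : ℝ) := by
  have hW' : (0 : ℝ) < (W : ℝ) := by exact_mod_cast hW
  have hinj := size23_injective D hD
  have hsol : IsFracSol (xs.map (size23 D))
      (z.map (fun p => (p.1.map (size23 D), (p.2 : ℝ) / (W : ℝ)))) := by
    constructor
    · intro q hq
      obtain ⟨p, hp, rfl⟩ := List.mem_map.1 hq
      refine ⟨⟨?_, ?_⟩, by positivity⟩
      · intro s hs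
        obtain ⟨b, hb, rfl⟩ := List.mem_map.1 hs
        exact List.mem_map.2 ⟨b, (hcfg p hp).1 b hb, rfl⟩
      · exact (sum_map_size23_le_one D hD p.1).2 (hcfg p hp).2
    · intro s hs
      obtain ⟨x, hx, rfl⟩ := List.mem_map.1 hs
      rw [List.count_map_of_injective _ _ hinj]
      have key : ∀ z : List (List ℤ × ℕ),
          ((z.map (fun p => (p.1.map (size23 D), (p.2 : ℝ) / (W : ℝ)))).map
            (fun p => p.2 * ((p.1.count (size23 D x) : ℕ) : ℝ))).sum =
          (((z.map (fun p => p.2 * p.1.count x)).sum : ℕ) : ℝ) / (W : ℝ) := by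
        intro z
        induction z with
        | nil => simp
        | cons p z ih =>
          simp only [List.map_cons, List.sum_cons, ih,
            List.count_map_of_injective _ _ hinj]
          push_cast
          ring
      rw [key z, le_div_iff₀ hW']
      exact_mod_cast hcov x hx
  have h := LP_le_of_fracSol hsol
  have e : ∀ z : List (List ℤ × ℕ),
      ((z.map (fun p => (p.1.map (size23 D), (p.2 : ℝ) / (W : ℝ)))).map Prod.snd).sum =
        (((z.map Prod.snd).sum : ℕ) : ℝ) / (W : ℝ) := by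
    intro z
    induction z with
    | nil => simp
    | cons p z ih =>
      simp only [List.map_cons, List.sum_cons, ih]
      push_cast
      ring
  rw [e z] at h
  exact h

/-- Boolean check that `c` is a configuration all of whose deviations occur in `xs`. -/
def cfgCheck (D : ℤ) (xs : List ℤ) (c : List ℤ) : Bool :=
  c.all (fun b => xs.contains b) && decide ((c.length : ℤ) * D + 3 * c.sum ≤ 3 * D)

/-- Boolean check that the deviation `x` is covered often enough. -/
def covCheck (W : ℕ) (xs : List ℤ) (z : List (List ℤ × ℕ)) (x : ℤ) : Bool :=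
  decide (xs.count x * W ≤ (z.map (fun p => p.2 * p.1.count x)).sum)

/-- Boolean check of a fractional solution given by integer data. -/
def lpCheck (D : ℤ) (W : ℕ) (xs : List ℤ) (z : List (List ℤ × ℕ)) : Bool :=
  z.all (fun p => cfgCheck D xs p.1) && xs.all (covCheck W xs z)

/-- Upper bound for `LP` from integer data, with separately checkable Boolean hypotheses:
`ys` may be any list containing all deviations of `xs` (for instance `xs` without
repetitions). -/
theorem LP_le_of_checks (D : ℤ) (hD : 0 < D) (W : ℕ) (hW : 0 < W) (xs ys : List ℤ)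
    (z : List (List ℤ × ℕ)) (hys : xs.all (fun x => ys.contains x) = true)
    (h1 : z.all (fun p => cfgCheck D xs p.1) = true)
    (h2 : ys.all (covCheck W xs z) = true) :
    LP (xs.map (size23 D)) ≤ (((z.map Prod.snd).sum : ℕ) : ℝ) / (W : ℝ) := by
  refine LP_le_of_cert D hD W hW xs z ?_ ?_
  · intro p hp
    have h := List.all_eq_true.1 h1 p hp
    unfold cfgCheck at h
    rw [Bool.and_eq_true] at h
    refine ⟨?_, of_decide_eq_true h.2⟩
    intro b hb
    have := List.all_eq_true.1 h.1 b hb
    simpa using this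
  · intro x hx
    have hxy : x ∈ ys := by
      have := List.all_eq_true.1 hys x hx
      simpa using this
    have h := List.all_eq_true.1 h2 x hxy
    unfold covCheck at h
    exact of_decide_eq_true h

/-- Upper bound for `LP` from integer data, one Boolean check. -/
theorem LP_le_of_lpCheck (D : ℤ) (hD : 0 < D) (W : ℕ) (hW : 0 < W) (xs : List ℤ)
    (z : List (List ℤ × ℕ)) (h : lpCheck D W xs z = true) :
    LP (xs.map (size23 D)) ≤ (((z.map Prod.snd).sum : ℕ) : ℝ) / (W : ℝ) := by
  unfold lpCheck at h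
  rw [Bool.and_eq_true] at h
  refine LP_le_of_checks D hD W hW xs xs z ?_ h.1 h.2
  rw [List.all_eq_true]
  intro x hx
  simpa using hx

/-! ### Lower bounds for `OPT` and the gap -/

/-- The optimum is attained. -/
theorem OPT_packable (I : List ℚ) (hI : ∀ a ∈ I, a ≤ 1) : Packable I (OPT I) :=
  Nat.sInf_mem (s := {k : ℕ | Packable I k}) ⟨I.length, packable_singletons I hI⟩

/-- If `I` cannot be packed into `k` bins then `k < OPT I`. -/
theorem lt_OPT_of_not_packable (I : List ℚ) (hI : ∀ a ∈ I, a ≤ 1) (k : ℕ)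
    (h : ¬ Packable I k) : k < OPT I := by
  by_contra hlt
  exact h ((OPT_packable I hI).mono (not_lt.1 hlt))

/-- Assembly: if `I` cannot be packed into `k` bins and `LP I ≤ v`, then
`k + 1 - v ≤ OPT I - LP I`. -/
theorem gap_of_not_packable (I : List ℚ) (hI : ∀ a ∈ I, a ≤ 1) (k : ℕ) (v : ℝ)
    (h1 : ¬ Packable I k) (h2 : LP I ≤ v) : (k : ℝ) + 1 - v ≤ (OPT I : ℝ) - LP I := by
  have h3 : k + 1 ≤ OPT I := lt_OPT_of_not_packable I hI k h1
  have h4 : ((k + 1 : ℕ) : ℝ) ≤ (OPT I : ℝ) := by exact_mod_cast h3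
  push_cast at h4
  linarith

/-- All sizes `1/3 + x/D` lie in `(0, 1]` when `-D < 3 x` and `3 x ≤ 2 D` for all deviations. -/
theorem size23_mem_Ioc (D : ℤ) (hD : 0 < D) (xs : List ℤ)
    (h : ∀ x ∈ xs, -D < 3 * x ∧ 3 * x ≤ 2 * D) :
    ∀ a ∈ xs.map (size23 D), 0 < a ∧ a ≤ 1 := by
  intro a ha
  obtain ⟨x, hx, rfl⟩ := List.mem_map.1 ha
  have hD' : (0 : ℚ) < (D : ℚ) := by exact_mod_cast hD
  have h1 : (-(D : ℚ)) < 3 * (x : ℚ) := by exact_mod_cast (h x hx).1
  have h2 : 3 * (x : ℚ) ≤ 2 * (D : ℚ) := by exact_mod_cast (h x hx).2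
  have e : size23 D x = ((D : ℚ) + 3 * (x : ℚ)) / (3 * (D : ℚ)) := by
    unfold size23
    field_simp
  rw [e]
  constructor
  · apply div_pos <;> linarith
  · rw [div_le_one (by linarith)]
    linarith

/-! ### The same bounds for sizes written as `(D + x) / (3 D)` -/

theorem size23_three_mul (D x : ℤ) (hD : 0 < D) :
    size23 (3 * D) x = ((D + x : ℤ) : ℚ) / ((3 * D : ℤ) : ℚ) := by
  have hD' : (D : ℚ) ≠ 0 := by exact_mod_cast hD.ne'
  unfold size23
  push_cast
  field_simp

theorem map_size23_three_mul (D : ℤ) (hD : 0 < D) (xs : List ℤ) :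
    xs.map (fun x => ((D + x : ℤ) : ℚ) / ((3 * D : ℤ) : ℚ)) = xs.map (size23 (3 * D)) :=
  List.map_congr_left (fun x _ => (size23_three_mul D x hD).symm)

/-- `LP_le_of_lpCheck` for the instance with sizes `(D + x) / (3 D)`; the check is run with
denominator `3 * D`. -/
theorem LP_le_of_lpCheck_dev (D : ℤ) (hD : 0 < D) (W : ℕ) (hW : 0 < W) (xs : List ℤ)
    (z : List (List ℤ × ℕ)) (h : lpCheck (3 * D) W xs z = true) :
    LP (xs.map (fun x => ((D + x : ℤ) : ℚ) / ((3 * D : ℤ) : ℚ))) ≤
      (((z.map Prod.snd).sum : ℕ) : ℝ) / (W : ℝ) := by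
  rw [map_size23_three_mul D hD xs]
  exact LP_le_of_lpCheck (3 * D) (by omega) W hW xs z h

/-- `LP_le_of_checks` for the instance with sizes `(D + x) / (3 D)`. -/
theorem LP_le_of_checks_dev (D : ℤ) (hD : 0 < D) (W : ℕ) (hW : 0 < W) (xs ys : List ℤ)
    (z : List (List ℤ × ℕ)) (hys : xs.all (fun x => ys.contains x) = true)
    (h1 : z.all (fun p => cfgCheck (3 * D) xs p.1) = true)
    (h2 : ys.all (covCheck W xs z) = true) :
    LP (xs.map (fun x => ((D + x : ℤ) : ℚ) / ((3 * D : ℤ) : ℚ))) ≤
      (((z.map Prod.snd).sum : ℕ) : ℝ) / (W : ℝ) := by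
  rw [map_size23_three_mul D hD xs]
  exact LP_le_of_checks (3 * D) (by omega) W hW xs ys z hys h1 h2

end Vale.Agent.H50.BinPack
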