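import Mathlib
import Vale.Agent.H50.BinPack.FiveB
import Vale.Agent.H50.BinPack.FiveC

/-!
# Bin packing: the modified round-up bound for instances with LP value at most 4
-/

namespace Vale.Agent.H50.BinPack

open List

/-- Items above `1/4` of an instance with `LP ≤ 4` fit into five bins. -/
theorem core5 (I T Lb Ss : List ℚ) (hperm : I ~ T ++ (Lb ++ Ss))
    (hI : ∀ a ∈ I, 0 < a ∧ a ≤ 1) (hT : ∀ v ∈ T, v ≤ 1 / 4) (hb : ∀ v ∈ Lb, 1 / 2 < v)
    (hs : ∀ v ∈ Ss, 1 / 4 < v ∧ v ≤ 1 / 2) (hsorted : Ss.Pairwise (· ≤ ·)) (hLP : LP I ≤ 4) :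
    Packable (Lb ++ Ss) 5 := by
  obtain ⟨hB, hn⟩ := count_bounds5 I T Lb Ss hperm hI hT hb hs hLP
  have hb1 : ∀ v ∈ Lb, v ≤ 1 := fun v hv => (hI v (hperm.mem_iff.2 (by simp [hv]))).2
  by_cases h10 : Ss.length + 2 * Lb.length ≤ 10
  · exact case_low Lb Ss hb1 (fun v hv => (hs v hv).2) h10
  · by_cases h11 : Ss.length + 2 * Lb.length = 11
    · exact case11 I T Lb Ss hperm hI hT hb hs hsorted hLP hB h11
    · have h12 : Ss.length + 2 * Lb.length = 12 := by omega
      by_cases hB2 : 2 ≤ Lb.length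
      · exact case12_two I T Lb Ss hperm hI hT hb hs hsorted hLP hB hB2 h12
      · rcases Lb with _ | ⟨b, _ | ⟨b2, L⟩⟩
        · have h : Ss.length = 12 := by simpa using h12
          have hperm' : I ~ T ++ Ss := by simpa using hperm
          simpa using case12_zero I T Ss hperm' hI hT hs hsorted hLP h
        · have h : Ss.length = 10 := by
            simp only [List.length_cons, List.length_nil] at h12; omega
          exact case12_one I T Ss b hperm hI hT (hb b (by simp)) hs hsorted hLP h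
        · exfalso
          simp only [List.length_cons] at hB2; omega

/-- `LP I ≤ 4` implies that `I` fits into five bins. -/
theorem packable5 (I : List ℚ) (hI : ∀ a ∈ I, 0 < a ∧ a ≤ 1) (hLP : LP I ≤ 4) :
    Packable I 5 := by
  obtain ⟨T, hTdef⟩ : ∃ T, T = I.filter (fun v => decide (v ≤ 1 / 4)) := ⟨_, rfl⟩
  obtain ⟨H, hHdef⟩ : ∃ H, H = I.filter (fun v => !decide (v ≤ 1 / 4)) := ⟨_, rfl⟩
  have hTH : T ++ H ~ I := by rw [hTdef, hHdef]; exact List.filter_append_perm _ I
  obtain ⟨Lb, hLbdef⟩ : ∃ Lb, Lb = H.filter (fun v => decide (1 / 2 < v)) := ⟨_, rfl⟩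
  obtain ⟨Ls, hLsdef⟩ : ∃ Ls, Ls = H.filter (fun v => !decide (1 / 2 < v)) := ⟨_, rfl⟩
  have hLL : Lb ++ Ls ~ H := by rw [hLbdef, hLsdef]; exact List.filter_append_perm _ H
  obtain ⟨Ss, hSsdef⟩ : ∃ Ss, Ss = Ls.insertionSort (· ≤ ·) := ⟨_, rfl⟩
  have hSs : Ss ~ Ls := by rw [hSsdef]; exact List.perm_insertionSort _ _
  have hsorted : Ss.Pairwise (· ≤ ·) := by rw [hSsdef]; exact List.pairwise_insertionSort _ _
  have hperm : I ~ T ++ (Lb ++ Ss) :=
    hTH.symm.trans (List.Perm.append_left T (hLL.symm.trans (List.Perm.append_left Lb hSs.symm)))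
  have hT : ∀ v ∈ T, v ≤ 1 / 4 := by
    intro v hv; rw [hTdef] at hv; simpa using (List.mem_filter.1 hv).2
  have hb : ∀ v ∈ Lb, 1 / 2 < v := by
    intro v hv; rw [hLbdef] at hv; simpa using (List.mem_filter.1 hv).2
  have hs : ∀ v ∈ Ss, 1 / 4 < v ∧ v ≤ 1 / 2 := by
    intro v hv
    have hv' := hSs.mem_iff.1 hv
    rw [hLsdef] at hv'
    have hv2 := List.mem_filter.1 hv'
    have hv3 := hv2.1
    rw [hHdef] at hv3
    have hv4 := List.mem_filter.1 hv3
    constructor
    · simpa using hv4.2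
    · simpa using hv2.2
  have hcore : Packable (Lb ++ Ss) 5 := core5 I T Lb Ss hperm hI hT hb hs hsorted hLP
  have hsum : (T ++ (Lb ++ Ss)).sum ≤ ((5 : ℕ) : ℚ) - 1 := by
    have h1 := sum_le_LP I hI
    rw [hperm.sum_eq] at h1
    have h2 : (((T ++ (Lb ++ Ss)).sum : ℚ) : ℝ) ≤ 4 := le_trans h1 hLP
    have h3 : (T ++ (Lb ++ Ss)).sum ≤ (4 : ℚ) := by exact_mod_cast h2
    have e : ((5 : ℕ) : ℚ) - 1 = 4 := by norm_num
    rw [e]; exact h3
  have hsmall : ∀ t ∈ T, 0 ≤ t ∧ t * (((5 : ℕ) : ℚ) - 1) ≤ 1 := by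
    intro t ht
    have h1 := hT t ht
    have h2 := (hI t (hperm.mem_iff.2 (by simp [ht]))).1
    constructor
    · linarith
    · norm_num; linarith
  exact (packable_add_small 5 (by norm_num) (Lb ++ Ss) T hsmall hsum hcore).perm hperm.symm

theorem exists_min_mem (L : List ℚ) (h : L ≠ []) : ∃ x ∈ L, ∀ v ∈ L, x ≤ v := by
  induction L with
  | nil => exact absurd rfl h
  | cons a L ih =>
    by_cases hL : L = []
    · subst hL
      exact ⟨a, by simp, by intro v hv; simp at hv; rw [hv]⟩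
    · obtain ⟨x, hx, hmin⟩ := ih hL
      by_cases hax : a ≤ x
      · refine ⟨a, by simp, ?_⟩
        intro v hv
        rcases List.mem_cons.1 hv with h1 | h1
        · rw [h1]
        · exact le_trans hax (hmin v h1)
      · refine ⟨x, by simp [hx], ?_⟩
        intro v hv
        rcases List.mem_cons.1 hv with h1 | h1
        · rw [h1]; exact le_of_lt (not_le.1 hax)
        · exact hmin v h1

/-- `LP I ≤ 3` implies that `I` fits into four bins. -/
theorem packable4 (I : List ℚ) (hI : ∀ a ∈ I, 0 < a ∧ a ≤ 1) (hLP : LP I ≤ 3) :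
    Packable I 4 := by
  obtain ⟨T, hTdef⟩ : ∃ T, T = I.filter (fun v => decide (v ≤ 1 / 3)) := ⟨_, rfl⟩
  obtain ⟨H, hHdef⟩ : ∃ H, H = I.filter (fun v => !decide (v ≤ 1 / 3)) := ⟨_, rfl⟩
  have hTH : T ++ H ~ I := by rw [hTdef, hHdef]; exact List.filter_append_perm _ I
  obtain ⟨Lb, hLbdef⟩ : ∃ Lb, Lb = H.filter (fun v => decide (1 / 2 < v)) := ⟨_, rfl⟩
  obtain ⟨Lm, hLmdef⟩ : ∃ Lm, Lm = H.filter (fun v => !decide (1 / 2 < v)) := ⟨_, rfl⟩
  have hLL : Lb ++ Lm ~ H := by rw [hLbdef, hLmdef]; exact List.filter_append_perm _ H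
  have hperm : I ~ T ++ (Lb ++ Lm) := hTH.symm.trans (List.Perm.append_left T hLL.symm)
  have hT : ∀ v ∈ T, v ≤ 1 / 3 := by
    intro v hv; rw [hTdef] at hv; simpa using (List.mem_filter.1 hv).2
  have hb : ∀ v ∈ Lb, 1 / 2 < v := by
    intro v hv; rw [hLbdef] at hv; simpa using (List.mem_filter.1 hv).2
  have hm : ∀ v ∈ Lm, 1 / 3 < v ∧ v ≤ 1 / 2 := by
    intro v hv
    rw [hLmdef] at hv
    have hv2 := List.mem_filter.1 hv
    have hv3 := hv2.1
    rw [hHdef] at hv3
    have hv4 := List.mem_filter.1 hv3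
    constructor
    · simpa using hv4.2
    · simpa using hv2.2
  have hH : ∀ v ∈ Lb ++ Lm, 1 / 4 < v := by
    intro v hv
    rcases List.mem_append.1 hv with h | h
    · have := hb v h; linarith
    · have := (hm v h).1; linarith
  have hb1 : ∀ v ∈ Lb, v ≤ 1 := fun v hv => (hI v (hperm.mem_iff.2 (by simp [hv]))).2
  -- at most three big items
  have hB : Lb.length ≤ 3 := by
    obtain ⟨g, hg⟩ : ∃ g : ℚ → ℝ, ∀ v, g v = if 1 / 2 < v then 1 else 0 := ⟨_, fun _ => rfl⟩
    have cls : ∀ v : ℚ, (1 / 2 < v ∧ g v = 1) ∨ (v ≤ 1 / 2 ∧ g v = 0) := by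
      intro v
      by_cases h : 1 / 2 < v
      · left; exact ⟨h, by rw [hg, if_pos h]⟩
      · right; exact ⟨not_lt.1 h, by rw [hg, if_neg h]⟩
    have hbound := dual_bound I T (Lb ++ Lm) hperm hI hH g
      (by
        intro a _ _
        rcases cls a with ⟨_, e⟩ | ⟨_, e⟩ <;> constructor <;> linarith)
      (by
        intro a _ c _ _ _ _
        rcases cls a with ⟨_, ea⟩ | ⟨_, ea⟩ <;>
        rcases cls c with ⟨_, ec⟩ | ⟨_, ec⟩ <;> linarith)
      (by
        intro a _ c _ d _ h4a h4c h4d hsum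
        rcases cls a with ⟨_, ea⟩ | ⟨_, ea⟩ <;>
        rcases cls c with ⟨_, ec⟩ | ⟨_, ec⟩ <;>
        rcases cls d with ⟨_, ed⟩ | ⟨_, ed⟩ <;> linarith)
    rw [List.map_append, List.sum_append] at hbound
    have e1 := sum_map_ge Lb g 1 (fun v hv => by rw [hg, if_pos (hb v hv)])
    have e2 := sum_map_ge Lm g 0 (fun v hv => by
      rw [hg, if_neg (not_lt.2 (hm v hv).2)])
    have : (Lb.length : ℝ) ≤ 3 := by linarith
    exact_mod_cast this
  -- at most six items above 1/3
  have hBn : Lb.length + Lm.length ≤ 6 := by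
    obtain ⟨g, hg⟩ : ∃ g : ℚ → ℝ, ∀ v, g v = if 1 / 3 < v then 1 / 2 else 0 :=
      ⟨_, fun _ => rfl⟩
    have cls : ∀ v : ℚ, (1 / 3 < v ∧ g v = 1 / 2) ∨ (v ≤ 1 / 3 ∧ g v = 0) := by
      intro v
      by_cases h : 1 / 3 < v
      · left; exact ⟨h, by rw [hg, if_pos h]⟩
      · right; exact ⟨not_lt.1 h, by rw [hg, if_neg h]⟩
    have hbound := dual_bound I T (Lb ++ Lm) hperm hI hH g
      (by
        intro a _ _
        rcases cls a with ⟨_, e⟩ | ⟨_, e⟩ <;> constructor <;> linarith)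
      (by
        intro a _ c _ _ _ _
        rcases cls a with ⟨_, ea⟩ | ⟨_, ea⟩ <;>
        rcases cls c with ⟨_, ec⟩ | ⟨_, ec⟩ <;> linarith)
      (by
        intro a _ c _ d _ h4a h4c h4d hsum
        rcases cls a with ⟨_, ea⟩ | ⟨_, ea⟩ <;>
        rcases cls c with ⟨_, ec⟩ | ⟨_, ec⟩ <;>
        rcases cls d with ⟨_, ed⟩ | ⟨_, ed⟩ <;> linarith)
    rw [List.map_append, List.sum_append] at hbound
    have e1 := sum_map_ge Lb g (1 / 2) (fun v hv => by
      have := hb v hv
      rw [hg, if_pos (by linarith)])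
    have e2 := sum_map_ge Lm g (1 / 2) (fun v hv => by
      rw [hg, if_pos (hm v hv).1])
    have : (Lb.length : ℝ) + (Lm.length : ℝ) ≤ 6 := by linarith
    exact_mod_cast this
  have hcore : Packable (Lb ++ Lm) 4 := by
    by_cases hc : Lb.length + (Lm.length + 1) / 2 ≤ 4
    · exact ((packable_singletons Lb hb1).append
        (packable_pairs Lm (fun v hv => (hm v hv).2))).mono hc
    · have hB3 : Lb.length = 3 := by omega
      have hn3 : Lm.length = 3 := by omega
      by_cases hhost : ∃ b ∈ Lb, ∃ m ∈ Lm, b + m ≤ 1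
      · obtain ⟨b, hbL, m, hmL, hbm⟩ := hhost
        obtain ⟨l1, l2, hl⟩ := List.append_of_mem hbL
        obtain ⟨m1, m2, hml⟩ := List.append_of_mem hmL
        have p1 : Packable [b, m] 1 := packable_one (by
          simp only [List.sum_cons, List.sum_nil]; linarith)
        have p2 := packable_singletons (l1 ++ l2) (fun v hv => hb1 v (by
          rw [hl]
          rcases List.mem_append.1 hv with h | h <;> simp [h]))
        have p3 := packable_pairs (m1 ++ m2) (fun v hv => (hm v (by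
          rw [hml]
          rcases List.mem_append.1 hv with h | h <;> simp [h])).2)
        have p := p1.append (p2.append p3)
        have hlen1 := congrArg List.length hl
        have hlen2 := congrArg List.length hml
        refine (p.perm ?_).mono ?_
        · rw [List.perm_iff_count]; intro a
          have hc1 := congrArg (List.count a) hl
          have hc2 := congrArg (List.count a) hml
          simp only [List.count_append, List.count_cons, List.count_nil] at hc1 hc2 ⊢; omega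
        · simp only [List.length_append, List.length_cons] at hlen1 hlen2 ⊢; omega
      · exfalso
        have hLbne : Lb ≠ [] := by
          intro h; rw [h] at hB3; simp at hB3
        have hLmne : Lm ≠ [] := by
          intro h; rw [h] at hn3; simp at hn3
        obtain ⟨β, hβ, hβmin⟩ := exists_min_mem Lb hLbne
        obtain ⟨μ, hμ, hμmin⟩ := exists_min_mem Lm hLmne
        have hβμ : 1 < β + μ := not_le.1 (fun h => hhost ⟨β, hβ, μ, hμ, h⟩)
        obtain ⟨g, hg⟩ : ∃ g : ℚ → ℝ,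
            ∀ v, g v = if 1 / 2 < v then 1 else if 1 / 3 < v then 1 / 2 else 0 :=
          ⟨_, fun _ => rfl⟩
        have cls : ∀ v ∈ I, (β ≤ v ∧ g v = 1) ∨ (μ ≤ v ∧ v ≤ 1 / 2 ∧ g v = 1 / 2) ∨
            (v ≤ 1 / 3 ∧ g v = 0) := by
          intro v hv
          rcases List.mem_append.1 (hperm.mem_iff.1 hv) with h | h
          · right; right
            have := hT v h
            exact ⟨this, by rw [hg, if_neg (not_lt.2 (by linarith)), if_neg (not_lt.2 this)]⟩
          · rcases List.mem_append.1 h with h | h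
            · left; exact ⟨hβmin v h, by rw [hg, if_pos (hb v h)]⟩
            · right; left
              exact ⟨hμmin v h, (hm v h).2, by
                rw [hg, if_neg (not_lt.2 (hm v h).2), if_pos (hm v h).1]⟩
        have hβ2 := hb β hβ
        have hμ2 := (hm μ hμ).1
        have hbound := dual_bound I T (Lb ++ Lm) hperm hI hH g
          (by
            intro a ha _
            rcases cls a ha with ⟨_, e⟩ | ⟨_, _, e⟩ | ⟨_, e⟩ <;> constructor <;> linarith)
          (by
            intro a ha c hc _ _ _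
            rcases cls a ha with ⟨_, ea⟩ | ⟨_, _, ea⟩ | ⟨_, ea⟩ <;>
            rcases cls c hc with ⟨_, ec⟩ | ⟨_, _, ec⟩ | ⟨_, ec⟩ <;> linarith)
          (by
            intro a ha c hc d hd h4a h4c h4d hsum
            rcases cls a ha with ⟨_, ea⟩ | ⟨_, _, ea⟩ | ⟨_, ea⟩ <;>
            rcases cls c hc with ⟨_, ec⟩ | ⟨_, _, ec⟩ | ⟨_, ec⟩ <;>
            rcases cls d hd with ⟨_, ed⟩ | ⟨_, _, ed⟩ | ⟨_, ed⟩ <;> linarith)
        rw [List.map_append, List.sum_append] at hbound
        have e1 := sum_map_ge Lb g 1 (fun v hv => by rw [hg, if_pos (hb v hv)])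
        have e2 := sum_map_ge Lm g (1 / 2) (fun v hv => by
          rw [hg, if_neg (not_lt.2 (hm v hv).2), if_pos (hm v hv).1])
        have hB3R : (Lb.length : ℝ) = 3 := by exact_mod_cast hB3
        have hn3R : (Lm.length : ℝ) = 3 := by exact_mod_cast hn3
        linarith
  have hsum : (T ++ (Lb ++ Lm)).sum ≤ ((4 : ℕ) : ℚ) - 1 := by
    have h1 := sum_le_LP I hI
    rw [hperm.sum_eq] at h1
    have h2 : (((T ++ (Lb ++ Lm)).sum : ℚ) : ℝ) ≤ 3 := le_trans h1 hLP
    have h3 : (T ++ (Lb ++ Lm)).sum ≤ (3 : ℚ) := by exact_mod_cast h2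
    have e : ((4 : ℕ) : ℚ) - 1 = 3 := by norm_num
    rw [e]; exact h3
  have hsmall : ∀ t ∈ T, 0 ≤ t ∧ t * (((4 : ℕ) : ℚ) - 1) ≤ 1 := by
    intro t ht
    have h1 := hT t ht
    have h2 := (hI t (hperm.mem_iff.2 (by simp [ht]))).1
    constructor
    · linarith
    · norm_num; linarith
  exact (packable_add_small 4 (by norm_num) (Lb ++ Lm) T hsmall hsum hcore).perm hperm.symm

/-- `LP I ≤ 2` implies that `I` fits into three bins. -/
theorem packable3 (I : List ℚ) (hI : ∀ a ∈ I, 0 < a ∧ a ≤ 1) (hLP : LP I ≤ 2) :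
    Packable I 3 := by
  obtain ⟨T, hTdef⟩ : ∃ T, T = I.filter (fun v => decide (v ≤ 1 / 2)) := ⟨_, rfl⟩
  obtain ⟨Lb, hLbdef⟩ : ∃ Lb, Lb = I.filter (fun v => !decide (v ≤ 1 / 2)) := ⟨_, rfl⟩
  have hTH : T ++ Lb ~ I := by rw [hTdef, hLbdef]; exact List.filter_append_perm _ I
  have hperm : I ~ T ++ Lb := hTH.symm
  have hT : ∀ v ∈ T, v ≤ 1 / 2 := by
    intro v hv; rw [hTdef] at hv; simpa using (List.mem_filter.1 hv).2
  have hb : ∀ v ∈ Lb, 1 / 2 < v := by
    intro v hv; rw [hLbdef] at hv; simpa using (List.mem_filter.1 hv).2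
  have hH : ∀ v ∈ Lb, 1 / 4 < v := by
    intro v hv
    have := hb v hv; linarith
  have hb1 : ∀ v ∈ Lb, v ≤ 1 := fun v hv => (hI v (hperm.mem_iff.2 (by simp [hv]))).2
  have hB : Lb.length ≤ 2 := by
    obtain ⟨g, hg⟩ : ∃ g : ℚ → ℝ, ∀ v, g v = if 1 / 2 < v then 1 else 0 := ⟨_, fun _ => rfl⟩
    have cls : ∀ v : ℚ, (1 / 2 < v ∧ g v = 1) ∨ (v ≤ 1 / 2 ∧ g v = 0) := by
      intro v
      by_cases h : 1 / 2 < v
      · left; exact ⟨h, by rw [hg, if_pos h]⟩
      · right; exact ⟨not_lt.1 h, by rw [hg, if_neg h]⟩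
    have hbound := dual_bound I T Lb hperm hI hH g
      (by
        intro a _ _
        rcases cls a with ⟨_, e⟩ | ⟨_, e⟩ <;> constructor <;> linarith)
      (by
        intro a _ c _ _ _ _
        rcases cls a with ⟨_, ea⟩ | ⟨_, ea⟩ <;>
        rcases cls c with ⟨_, ec⟩ | ⟨_, ec⟩ <;> linarith)
      (by
        intro a _ c _ d _ h4a h4c h4d hsum
        rcases cls a with ⟨_, ea⟩ | ⟨_, ea⟩ <;>
        rcases cls c with ⟨_, ec⟩ | ⟨_, ec⟩ <;>
        rcases cls d with ⟨_, ed⟩ | ⟨_, ed⟩ <;> linarith)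
    have e1 := sum_map_ge Lb g 1 (fun v hv => by rw [hg, if_pos (hb v hv)])
    have : (Lb.length : ℝ) ≤ 2 := by linarith
    exact_mod_cast this
  have hcore : Packable Lb 3 := (packable_singletons Lb hb1).mono (by omega)
  have hsum : (T ++ Lb).sum ≤ ((3 : ℕ) : ℚ) - 1 := by
    have h1 := sum_le_LP I hI
    rw [hperm.sum_eq] at h1
    have h2 : (((T ++ Lb).sum : ℚ) : ℝ) ≤ 2 := le_trans h1 hLP
    have h3 : (T ++ Lb).sum ≤ (2 : ℚ) := by exact_mod_cast h2
    have e : ((3 : ℕ) : ℚ) - 1 = 2 := by norm_num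
    rw [e]; exact h3
  have hsmall : ∀ t ∈ T, 0 ≤ t ∧ t * (((3 : ℕ) : ℚ) - 1) ≤ 1 := by
    intro t ht
    have h1 := hT t ht
    have h2 := (hI t (hperm.mem_iff.2 (by simp [ht]))).1
    constructor
    · linarith
    · norm_num; linarith
  exact (packable_add_small 3 (by norm_num) Lb T hsmall hsum hcore).perm hperm.symm

/-- The modified round-up bound for all instances with `LP I ≤ 4`, and hence for all
instances with `OPT I ≤ 6`. -/
theorem mirup_small (I : List ℚ) (hI : ∀ a ∈ I, 0 < a ∧ a ≤ 1)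
    (h : LP I ≤ 4 ∨ OPT I ≤ 6) : (OPT I : ℤ) ≤ ⌈LP I⌉ + 1 := by
  have hS := sum_le_LP I hI
  have key : ∀ k : ℕ, (k : ℝ) < LP I → Packable I (k + 2) → (OPT I : ℤ) ≤ ⌈LP I⌉ + 1 := by
    intro k hk hp
    have h1 : (k : ℤ) < ⌈LP I⌉ := Int.lt_ceil.2 (by exact_mod_cast hk)
    have h2 : OPT I ≤ k + 2 := OPT_le hp
    have h3 : (OPT I : ℤ) ≤ (k : ℤ) + 2 := by exact_mod_cast h2
    linarith
  by_cases h4 : LP I ≤ 4
  · by_cases h3 : LP I ≤ 3
    · by_cases h2 : LP I ≤ 2
      · by_cases h1 : LP I ≤ 1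
        · -- everything fits into one bin
          have hsum : I.sum ≤ 1 := by
            have : ((I.sum : ℚ) : ℝ) ≤ 1 := le_trans hS h1
            exact_mod_cast this
          by_cases h0 : I = []
          · subst h0
            have hp : OPT ([] : List ℚ) ≤ 0 := OPT_le packable_nil
            have h5 : (0 : ℤ) ≤ ⌈LP ([] : List ℚ)⌉ := Int.ceil_nonneg (LP_nonneg _)
            have h6 : (OPT ([] : List ℚ) : ℤ) ≤ 0 := by exact_mod_cast hp
            linarith
          · have hpos : 0 < I.sum := by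
              rcases I with _ | ⟨a, L⟩
              · exact absurd rfl h0
              · have ha := (hI a (by simp)).1
                have hL : 0 ≤ L.sum := List.sum_nonneg (fun x hx => (hI x (by simp [hx])).1.le)
                simp only [List.sum_cons]; linarith
            have hLPpos : (0 : ℝ) < LP I := by
              have : (0 : ℝ) < ((I.sum : ℚ) : ℝ) := by exact_mod_cast hpos
              linarith
            have h5 : (0 : ℤ) < ⌈LP I⌉ := Int.lt_ceil.2 (by exact_mod_cast hLPpos)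
            have hp : OPT I ≤ 1 := OPT_le (packable_one hsum)
            have h6 : (OPT I : ℤ) ≤ 1 := by exact_mod_cast hp
            linarith
        · exact key 1 (by push_cast; exact not_le.1 h1) (packable3 I hI h2)
      · exact key 2 (by push_cast; exact not_le.1 h2) (packable4 I hI h3)
    · exact key 3 (by push_cast; exact not_le.1 h3) (packable5 I hI h4)
  · have h5 : (4 : ℤ) < ⌈LP I⌉ := Int.lt_ceil.2 (by push_cast; exact not_le.1 h4)
    rcases h with h | h
    · exact absurd h h4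
    · have h6 : (OPT I : ℤ) ≤ 6 := by exact_mod_cast h
      linarith

end Vale.Agent.H50.BinPack
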